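import Vale.Agent.P216MG.Cm
import Vale.Agent.P216TK.Uc
import Vale.Agent.P216TK.T2Goal
import Vale.Agent.P216.H126U.U5
import Vale.Agent.P216.Smooth.Geo

/-!
Finitely many closed geodesics: centralisers are cyclic.
-/

open Set

namespace Vale.Agent.P216MG

open Vale.Agent.P216 Vale.Agent.P216T Vale.Agent.P216.H126U Vale.Agent.P216TK

theorem exists_univ_cover (V : Type) [NormedAddCommGroup V] [NormedSpace ℝ V]
    [FiniteDimensional ℝ V] {W : Type} [TopologicalSpace W] [ChartedSpace V W]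
    [PreconnectedSpace W] (x₀ : W) : ∃ (X : Type) (_ : TopologicalSpace X)
      (_ : MulAction (FundamentalGroup W x₀) X) (P : X → W),
      SimplyConnectedSpace X ∧ Quo (FundamentalGroup W x₀) P := by
  have : ConnectedSpace W := { toNonempty := ⟨x₀⟩ }
  choose ψ hψ hψ' using fun x : W => exists_param (V := V) x
  let A : Atlas (Module.finrank ℝ V) W W := ⟨ψ, hψ, fun x => ⟨x, hψ' x⟩⟩
  have := pathConnected A
  let e := fgHom x₀
  let m : MulAction (FundamentalGroup W x₀) (UX A x₀) := MulAction.compHom _ e.toMonoidHom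
  refine ⟨UX A x₀, _, m, pr A x₀, sc, pr_cov.isLocalHomeomorph,
    fun x => ⟨⟨x, (1 : Pi1 x₀)⟩, rfl⟩, fun g => smul_cont (e g), fun g => smul_proj (e g),
    fun x y k => ?_, fun g x k => e.injective ((smul_free (e g) x k).trans (map_one e).symm)⟩
  obtain ⟨g, rfl⟩ := (smul_orb x y).1 k
  exact ⟨e.symm g, congrArg (· • x) (e.apply_symm_apply g)⟩

/-- **T2** -/
theorem t2 : P216TK.T2Goal := fun E _ _ _ M _ _ _ _ _ _ _ x₀ hf tf bs => by
  have := preconnectedSpace_of_riemannian E (M := M)
  obtain ⟨X, _, _, P, _, h⟩ := exists_univ_cover E x₀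
  have hM := hasSegments_of_riemannian (modelWithCornersSelf ℝ E) M
  have : LocallyCompactSpace X :=
    letI := lhCharts h.loc
    ChartedSpace.locallyCompactSpace M X
  let _ := cmet h hM
  obtain ⟨h1, _⟩ := covM h hM
  have := h1.proper
  obtain ⟨r, h2, h3, -⟩ := Geo.exists_uniqSeg E M
  obtain ⟨ι, _, c, a, l, ρ, h4⟩ := h1.nice hM (nonBranching_of_riemannian E M) hf h2
    fun x y m m' k b d e f => (h3 x y k (1 / 2) ⟨by norm_num, by norm_num⟩).unique
      ⟨by linarith, by linarith⟩ ⟨by linarith, by linarith⟩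
  exact h4.cyclic tf bs

end Vale.Agent.P216MG
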