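import Vale.Agent.P216B.Top
import Vale.Agent.P216T.Cov
import Vale.Agent.P216R.Nat
import Vale.Agent.P216.H494.CovDef

/-!
Riemannian coverings.
-/

set_option linter.unusedSectionVars false

open scoped Manifold ContDiff Topology ENNReal
open Set Filter

namespace Vale.Agent.P216MG

open Vale.Agent.P216R

variable {E : Type} [NormedAddCommGroup E] [NormedSpace ℝ E]
  {M : Type} [TopologicalSpace M] [ChartedSpace E M]
  {X : Type} [TopologicalSpace X] [ChartedSpace E X]

variable (E) in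
/-- `p : X → M` is a smooth regular covering of `U` with group `G` -/
structure RCov (G : Type) [Group G] [MulAction G X] (p : X → M) (U : Set M) : Prop where
  ld : LD E p univ
  mem : ∀ y, p y ∈ U
  surj : ∀ x ∈ U, ∃ y, p y = x
  cont : ∀ a : G, Continuous fun y : X => a • y
  inv : ∀ (a : G) (y : X), p (a • y) = p y
  orb : ∀ y y' : X, p y = p y' → ∃ a : G, a • y = y'
  free : ∀ (a : G) (y : X), a • y = y → a = 1
  lift : ∀ γ : ℝ → M, ContinuousOn γ (Icc 0 1) → MapsTo γ (Icc 0 1) U → ∀ y, p y = γ 0 →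
    ∃ Γ : ℝ → X, Continuous Γ ∧ Γ 0 = y ∧ ∀ t ∈ Icc (0 : ℝ) 1, p (Γ t) = γ t

theorem exists_rcov [IsManifold 𝓘(ℝ, E) ∞ M] {G : Type} [Group G] {U : Set M} (hU : IsOpen U)
    {X : Type} [TopologicalSpace X] [MulAction G X] {P : X → U} (h : P216T.Quo G P) :
    ∃ (_ : ChartedSpace E X) (_ : IsManifold 𝓘(ℝ, E) ∞ X),
      RCov E G (fun y => (P y : M)) U := by
  have hf : IsLocalHomeomorph fun y => (P y : M) :=
    hU.isOpenEmbedding_subtypeVal.isLocalHomeomorph.comp h.loc
  let this : ChartedSpace E X := P216.H494.instChartedCov hf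
  refine ⟨this, P216.H494.instManifoldCov hf,
    ⟨isOpen_univ, (P216.H494.Cov.contMDiff_p hf).contMDiffOn, fun x _ => ?_⟩, fun y => (P y).2,
    fun x hx => (h.surj ⟨x, hx⟩).imp fun _ => congrArg Subtype.val, h.cont,
    fun a y => congrArg _ (h.inv a y), fun y y' e => h.orb y y' (Subtype.ext e), h.free,
    fun γ h1 h2 y e => ?_⟩
  · have e : md E (fun y => (P y : M)) x = ContinuousLinearMap.id ℝ E :=
      (P216.H494.Cov.hasMFDerivAt (E := E) hf x).mfderiv
    rw [e]
    exact Function.injective_id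
  · obtain ⟨Γ, h3, h4⟩ := h.cov.exists_path_lifts
      ⟨fun t => ⟨γ t, h2 t.2⟩, h1.domRestrict.subtype_mk _⟩ y (Subtype.ext e.symm)
    refine ⟨fun t => Γ (projIcc 0 1 zero_le_one t), Γ.continuous.comp continuous_projIcc,
      by simpa using h4, fun t ht => ?_⟩
    simp only [projIcc_of_mem _ ht]
    exact congrArg Subtype.val (congrFun h3 _)

variable [FiniteDimensional ℝ E] [IsManifold 𝓘(ℝ, E) ∞ M] [IsManifold 𝓘(ℝ, E) ∞ X]

theorem lift_smooth {p : X → M} (hp : LD E p univ) {F : Type} [NormedAddCommGroup F]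
    [NormedSpace ℝ F] {Y : Type} [TopologicalSpace Y] [ChartedSpace F Y] {n : ℕ∞} {k : Y → X}
    {s : Set Y} {y : Y} (h1 : ContinuousWithinAt k s y)
    (h2 : ContMDiffWithinAt 𝓘(ℝ, F) 𝓘(ℝ, E) n (p ∘ k) s y) :
    ContMDiffWithinAt 𝓘(ℝ, F) 𝓘(ℝ, E) n k s y := by
  obtain ⟨l, h3, h4, -⟩ := exists_inv (hp.sm (mem_univ (k y))) (hp.inj _ (mem_univ _))
  exact ((h3.of_le (by exact_mod_cast le_top)).comp_contMDiffWithinAt y h2).congr_of_eventuallyEq
    ((h1.tendsto.eventually h4).mono fun _ h => h.symm) h4.self_of_nhds.symm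

variable {G : Type} [Group G] [MulAction G X] {p : X → M} {U : Set M} {g : Ten E M}

/-- uniformly locally compact Riemannian manifolds are complete -/
theorem cpl_of_unif (hg : Met g U) {ε : ℝ} (hε : 0 < ε) (h : ∀ y ∈ U, IsCompact (cbl g U y ε)) :
    Cpl g U := by
  intro x hx r
  have h1 : ∀ n : ℕ, IsCompact (cbl g U x (n * (ε / 4))) := fun n => by
    induction n with
    | zero => exact hg.isCompact_cbl (h x hx) cbl_subset (cbl_mono (by simpa using hε.le))
    | succ n ih =>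
      obtain ⟨T, h1, h2⟩ := ih.elim_nhds_subcover (fun z => bl g U z (ε / 2))
        fun z hz => hg.bl_mem_nhds (cbl_subset hz) (half_pos hε)
      refine hg.isCompact_cbl (T.isCompact_biUnion fun z hz => h z (cbl_subset (h1 z hz)))
        (iUnion₂_subset fun _ _ => cbl_subset) fun y hy => ?_
      obtain ⟨z, h3, h4⟩ := mid (s := ENNReal.ofReal (n * (ε / 4))) (t := ENNReal.ofReal (ε / 2))
        (lt_of_le_of_lt hy (by
          rw [← ENNReal.ofReal_add (by positivity) (by positivity),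
            ENNReal.ofReal_lt_ofReal_iff (by positivity)]
          push_cast
          linarith))
      obtain ⟨w, h5, h6⟩ := mem_iUnion₂.1 (h2 h3)
      exact mem_iUnion₂.2 ⟨w, h5, add_halves ε ▸ cbl_add (half_pos hε).le (half_pos hε).le
        (bl_subset_cbl h6) h4⟩
  obtain ⟨n, hn⟩ := exists_nat_ge (r / (ε / 4))
  exact hg.isCompact_cbl (h1 n) cbl_subset (cbl_mono ((div_le_iff₀ (by positivity)).1 hn))

namespace RCov

variable (h : RCov E G p U)
include h

theorem smooth (a : G) : ContMDiff 𝓘(ℝ, E) 𝓘(ℝ, E) ∞ fun y : X => a • y := fun y =>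
  contMDiffWithinAt_univ.1 (lift_smooth h.ld (h.cont a).continuousWithinAt (by
    rw [show p ∘ (fun y : X => a • y) = p from funext (h.inv a)]
    exact h.ld.smooth y (mem_univ y)))

theorem ld_smul (a : G) : LD E (fun y : X => a • y) univ :=
  ld_of_left_inv isOpen_univ (h.smooth a).contMDiffOn (k := fun y => a⁻¹ • y)
    (fun _ _ => SM.md (h.smooth a⁻¹ _)) fun _ _ => inv_smul_smul _ _

theorem comap_smul (a : G) : comap (fun y : X => a • y) (comap p g) = comap p g := by
  funext y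
  rw [comap_comp g (h.ld.md (mem_univ _)) ((h.ld_smul a).md (mem_univ _))]
  exact congrArg (comap · g y) (funext (h.inv a))

theorem met (hg : Met g U) : Met (comap p g) univ := hg.comap h.ld fun y _ => h.mem y

theorem ed_smul (a : G) (y y' : X) :
    ed (comap p g) univ (a • y) (a • y') = ed (comap p g) univ y y' := by
  have h1 : ∀ (a : G) (y y' : X),
      ed (comap p g) univ (a • y) (a • y') ≤ ed (comap p g) univ y y' := fun a y y' => by
    simpa only [h.comap_smul] using
      (h.ld_smul a).ed_le (h := comap p g) (mapsTo_univ _ _) y y'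
  exact le_antisymm (h1 a y y') (by simpa using h1 a⁻¹ (a • y) (a • y'))

theorem ed_le (y y' : X) : ed g U (p y) (p y') ≤ ed (comap p g) univ y y' :=
  h.ld.ed_le (fun y _ => h.mem y) y y'

theorem ed_lift {y : X} {q : M} {r : ℝ≥0∞} (hq : ed g U (p y) q < r) :
    ∃ y', ed (comap p g) univ y y' < r ∧ p y' = q := by
  obtain ⟨γ, h1, h2, rfl, h3⟩ := ed_lt_iff.1 hq
  obtain ⟨Γ, h4, rfl, h5⟩ := h.lift γ h1.cont h1.mem y h2.symm
  have h6 : Crv E univ Γ 0 1 := ⟨zero_le_one, fun t ht => lift_smooth (n := 1) h.ld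
    h4.continuousWithinAt ((h1.diff.congr h5) t ht), mapsTo_univ _ _⟩
  refine ⟨Γ 1, (ed_le_len h6).trans_lt ?_, h5 1 ⟨zero_le_one, le_rfl⟩⟩
  rwa [← len_map h6 fun x hx => h.ld.md hx,
    len_congr (γ := p ∘ Γ) (γ' := γ) fun t ht => h5 t (Ioo_subset_Icc_self ht)]

theorem image_bl (y : X) (r : ℝ) : p '' bl (comap p g) univ y r = bl g U (p y) r :=
  Subset.antisymm (image_subset_iff.2 fun y' hy => (h.ed_le y y').trans_lt hy)
    fun _ hq => h.ed_lift hq

theorem smul_bl (a : G) (y : X) (r : ℝ) :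
    (fun z => a • z) '' bl (comap p g) univ y r = bl (comap p g) univ (a • y) r := by
  ext z
  refine ⟨fun ⟨w, h1, h2⟩ => h2 ▸ (h.ed_smul a y w).trans_lt h1, fun h1 => ⟨a⁻¹ • z, ?_, by simp⟩⟩
  change ed _ _ _ _ < _
  rwa [← h.ed_smul a, smul_inv_smul]

theorem continuous : Continuous p := continuousOn_univ.1 h.ld.smooth.continuousOn

theorem inj (y : X) : ∃ V ∈ 𝓝 y, InjOn p V := by
  obtain ⟨l, -, h4, -⟩ := exists_inv (h.ld.sm (mem_univ y)) (h.ld.inj _ (mem_univ _))
  exact ⟨_, h4, fun a ha b hb e => ha.symm.trans ((congrArg l e).trans hb)⟩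

theorem t2 (hU : Hs U) : T2Space X := t2Space_iff_disjoint_nhds.2 fun y y' hne => by
  by_cases e : p y = p y'
  · obtain ⟨a, rfl⟩ := h.orb y y' e
    obtain ⟨V, h1, h2⟩ := h.inj y
    refine disjoint_of_disjoint_of_mem (disjoint_left.2 fun z h3 h4 => hne ?_) h1
      ((h.cont a⁻¹).continuousAt.preimage_mem_nhds (by simpa using h1))
    have := h.free _ _ (h2 h4 h3 (h.inv _ _))
    rw [inv_eq_one.1 this, one_smul]
  · exact (h.continuous.tendsto y).disjoint (hU (h.mem y) (h.mem y') e) (h.continuous.tendsto y')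

theorem secGe (hg : Met g U) {y : X} {κ : ℝ} : SecGe (comap p g) y κ ↔ SecGe g (p y) κ :=
  (li_comap hg h.ld (mem_univ y) (h.mem y)).SecGe κ

theorem finite (hU : Hs U) {K : Set X} (hK : IsCompact K) (y : X) : {a : G | a • y ∈ K}.Finite := by
  have h1 : IsClosed {z | p z = p y} := isOpen_compl_iff.1 (isOpen_iff_mem_nhds.2 fun z hz =>
    h.continuous.tendsto z (hU.compl_mem isCompact_singleton
      (singleton_subset_iff.2 (h.mem y)) (h.mem z) hz))
  have h2 := (hK.inter_right h1).finite (isDiscrete_iff_forall_mem_exists_isOpen.2 fun z hz => by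
    obtain ⟨V, h2, h3⟩ := h.inj z
    exact ⟨interior V, isOpen_interior, Subset.antisymm (fun w hw => h3 (interior_subset hw.1)
      (mem_of_mem_nhds h2) (hw.2.2.trans hz.2.symm))
      (singleton_subset_iff.2 ⟨mem_interior_iff_mem_nhds.2 h2, hz⟩)⟩)
  exact (h2.preimage (f := fun a : G => a • y) fun a _ b _ e => (inv_mul_eq_one.1
    (h.free _ y (by rw [mul_smul, inv_smul_eq_iff]; exact e.symm)))).subset fun a ha => ⟨ha, h.inv a y⟩

theorem cpl (hg : Met g U) (hU : Hs U) (hc : IsCompact U) : Cpl (comap p g) univ := by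
  have := h.t2 hU
  obtain ⟨ε, h1, h2⟩ := hc.induction_on
    (p := fun K => ∃ ε > 0, ∀ y, p y ∈ K → IsCompact (cbl (comap p g) univ y ε))
    ⟨1, one_pos, by simp⟩ (fun s t a ⟨ε, b, c⟩ => ⟨ε, b, fun y hy => c y (a hy)⟩)
    (fun s t ⟨ε, a, b⟩ ⟨δ, c, d⟩ => ⟨min ε δ, lt_min a c, fun y hy => hy.elim
      (fun e => (h.met hg).isCompact_cbl (b y e) cbl_subset (cbl_mono (min_le_left _ _)))
      fun e => (h.met hg).isCompact_cbl (d y e) cbl_subset (cbl_mono (min_le_right _ _))⟩)
    fun x hx => by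
      obtain ⟨z, rfl⟩ := h.surj x hx
      obtain ⟨R, h1, h2⟩ := (h.met hg).exists_cpt (hs_of_t2 _) (mem_univ z)
      refine ⟨_, mem_nhdsWithin_of_mem_nhds (hg.bl_mem_nhds hx (r := R / 4) (by positivity)),
        R / 4, by positivity, fun y hy => ?_⟩
      obtain ⟨y', h3, h4⟩ := h.ed_lift hy
      obtain ⟨a, rfl⟩ := h.orb _ _ h4
      refine (h.met hg).isCompact_cbl ((h2 (R / 4 + R / 4) (by linarith)).image (h.cont a))
        (subset_univ _) fun w hw => ⟨a⁻¹ • w, cbl_add (by positivity) (by positivity) h3.le ?_,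
          smul_inv_smul a w⟩
      change ed _ _ _ _ ≤ _
      rwa [← h.ed_smul a, smul_inv_smul]
  exact cpl_of_unif (h.met hg) h1 fun y _ => h2 y (h.mem y)

end RCov

end Vale.Agent.P216MG
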