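import Vale.Agent.P216MG.ThinE
import Vale.Agent.P216MG.Cover
import Vale.Agent.P216CP.Stm
import Vale.Agent.P216BF.Curv
import Vale.Agent.P216C.Plan
import Vale.Agent.P216FI.Vol2
import Vale.Agent.P216HV.Hv

/-!
The thin lemma for Riemannian three-manifolds of the class.
-/

set_option linter.unusedSectionVars false

open scoped Manifold ContDiff Topology ENNReal
open Set Filter MeasureTheory

namespace Vale.Agent.P216MG

open Vale.Agent.P216R Vale.Agent.P216.ASCoh

theorem top_coch (hT : P216T.TopGoal) {G : Type} [Group G] (hG : P216T.Pk G) {N X : Type}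
    [TopologicalSpace N] [T2Space N] [CompactSpace N] [ChartedSpace E3 N] [TopologicalSpace X]
    [MulAction G X] {P : X → N} (h1 : P216T.SC X) (h2 : P216T.Quo G P) :
    ∃ f : Cochain X (ZMod 2) 3, (∀ (g : G) x, f (g • x) = f x) ∧ cobd f = 0 ∧
      ∀ h : Cochain X (ZMod 2) 2, (∀ (g : G) x, h (g • x) = h x) → ¬ LocZero (f - cobd h) := by
  obtain ⟨o, h3, h4, h5⟩ := hT G hG.cc hG.nvc N X P h1 h2
  have e : (-1 : ZMod 2) = 1 := rfl
  refine ⟨fun x => o (x 0) (x 1) (x 2) (x 3), fun g x => h3 g _ _ _ _, funext fun x => ?_,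
    fun h a b => h5 (fun a b c => h ![a, b, c]) (fun g x y z => ?_) fun x => ?_⟩
  · simp only [cobd, e, one_pow, one_mul, Fin.sum_univ_succ, Fin.sum_univ_zero, add_zero,
      ← add_assoc]
    exact h4 (x 0) (x 1) (x 2) (x 3) (x 4)
  · rw [← a g ![x, y, z]]
    congr 1
    funext i
    fin_cases i <;> rfl
  · obtain ⟨W, h6, h7⟩ := b x
    refine ⟨W, h6, fun p hp q hq r hr s hs => ?_⟩
    refine (sub_eq_zero.1 (h7 ![p, q, r, s] fun i => by fin_cases i <;> assumption)).trans ?_
    change cobd h ![p, q, r, s] = _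
    simp only [cobd, e, one_pow, one_mul, Fin.sum_univ_succ, Fin.sum_univ_zero, add_zero,
      ← add_assoc]
    congr 1
    congr 1
    congr 1
    all_goals congr 1; funext i; fin_cases i <;> rfl

section

variable {E : Type} [NormedAddCommGroup E] [NormedSpace ℝ E] [FiniteDimensional ℝ E]
  {M : Type} [TopologicalSpace M] [ChartedSpace E M] [IsManifold 𝓘(ℝ, E) ∞ M]
  {g : Ten E M} {U : Set M}

/-- the Riemannian distance on a connected open set -/
@[reducible] noncomputable def msp (hg : Met g U) (hH : Hs U) (hc : IsPreconnected U) :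
    MetricSpace U :=
  MetricSpace.ofDistTopology (fun x y => dd g U x y) (fun _ => dd_self) (fun _ _ => dd_comm)
    (fun x y z => dd_triangle (hg.ed_ne_top hc subset_rfl x.2 y.2)
      (hg.ed_ne_top hc subset_rfl y.2 z.2))
    (fun s => by
      simp only [isOpen_iff_mem_nhds, nhds_subtype]
      exact forall₂_congr fun x _ => ((hg.hasBasis hH x.2).comap Subtype.val).mem_iff.trans <|
        exists_congr fun r => and_congr_right fun _ =>
        forall_congr' fun y => imp_congr_left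
          (mem_bl_iff.trans (and_iff_right (hg.ed_ne_top hc subset_rfl x.2 y.2))))
    fun x y h => Subtype.ext (hg.eq_of_ed hH (by
      rw [← ofReal_dd (hg.ed_ne_top hc subset_rfl x.2 y.2), h, ENNReal.ofReal_zero]))

end

theorem sn_ratio {k s : ℝ} (hk : 0 < k) (hs : 0 < s) (h : k * s ≤ 1) :
    1 / 4 ≤ P216CP.sn k s / P216CP.sn k (2 * s) := by
  have h1 := Real.sinh_pos_iff.2 (mul_pos hk hs)
  have h2 : Real.cosh (k * s) ≤ 2 := by
    have := Real.exp_le_exp.2 h
    have := Real.exp_one_lt_d9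
    have := Real.exp_le_one_iff.2 (neg_nonpos.2 (mul_pos hk hs).le)
    rw [Real.cosh_eq]
    linarith
  simp only [P216CP.sn, hk.ne', if_false, mul_left_comm k 2 s, Real.sinh_two_mul]
  rw [div_div_div_cancel_right₀ hk.ne', le_div_iff₀ (by positivity)]
  nlinarith

theorem doubling (hB : P216CP.BG E3) {M : Type} [TopologicalSpace M] [ChartedSpace E3 M]
    [IsManifold 𝓘(ℝ, E3) ∞ M] [MeasurableSpace M] [BorelSpace M] {g : Ten E3 M} {U : Set M}
    {x : M} {r s : ℝ} (hg : Met g U) (hH : Hs U) (hc : Cpt g U x (2 * s)) (hs : 0 < s)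
    (hr : s ≤ r) (h : ∀ y ∈ bl g U x (2 * s), SecGe g y (-(1 / r ^ 2))) :
    vol g (bl g U x (2 * s)) ≤ (32 : ℕ) * vol g (bl g U x s) := by
  have h0 := hs.trans_le hr
  have h1 := (hB M g U x (2 * s) r⁻¹ hg hH hc (by positivity) (by positivity) (by simp)
    fun y hy v => by
      convert P216BF.ricGe_of_sec hg (bl_subset hy) (h y hy) v using 2
      ring).2.1 s hs (by linarith)
  have h2 := sn_ratio (inv_pos.2 h0) hs (inv_mul_le_one_of_le₀ hr h0.le)
  refine le_trans ?_ (mul_le_mul_right h1 _)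
  rw [← mul_assoc, ← ENNReal.ofReal_natCast, ← ENNReal.ofReal_mul (by positivity)]
  refine le_mul_of_one_le_left' (ENNReal.one_le_ofReal.2 ?_)
  rw [P216BF.finrank_E3, div_mul_cancel_right₀ hs.ne']
  norm_num
  nlinarith

/-- **THIN**, with a universal constant -/
theorem thin_univ (hT : P216T.TopGoal) (hB : P216CP.BG E3) :
    ∃ w > 0, ∀ (G : Type) [Group G], P216T.Pk G → P216C.Thick (fun _ _ _ U => P216T.InC G U) w := by
  obtain ⟨R, h1, hR⟩ := thin_absE 32
  refine ⟨1 / (432 * 64 * R ^ 3), by positivity, fun G _ hG M _ _ _ _ _ U g hU hg => ?_⟩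
  by_contra! hc
  choose! r h2 h3 h4 using hc
  obtain ⟨X, _, _, P, h5, h6⟩ := hU.cls
  have := hU.hs.t2
  have := isCompact_iff_compactSpace.1 hU.cpt
  let _ : ChartedSpace E3 U :=
    inferInstanceAs (ChartedSpace E3 (⟨U, hg.isOpen⟩ : TopologicalSpace.Opens M))
  obtain ⟨f, f1, f2, f3⟩ := top_coch hT hG h5 h6
  obtain ⟨_, _, hp⟩ := exists_rcov (E := E3) hg.isOpen h6
  have : Nontrivial G := not_subsingleton_iff_nontrivial.1 fun _ =>
    hG.nvc 1 Subgroup.finiteIndex_of_finite
  borelize X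
  let _ := msp hg hU.hs hU.conn
  have hm := hp.met hg
  have hc := hp.cpl hg hU.hs hU.cpt
  have := hp.t2 hU.hs
  have e : ∀ (x : U) s, Subtype.val '' Metric.ball x s = bl g U x s := fun x s => by
    ext y
    refine ⟨?_, fun h => ⟨⟨y, bl_subset h⟩, Metric.mem_ball'.2 (mem_bl_iff.1 h).2, rfl⟩⟩
    rintro ⟨y, h, rfl⟩
    exact mem_bl_iff.2 ⟨hg.ed_ne_top hU.conn subset_rfl x.2 y.2, Metric.mem_ball'.1 h⟩
  obtain ⟨h, a, b⟩ := hR G X U (ZMod 2) (ed (comap (fun y => (P y : M)) g) univ) P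
    (vol (comap (fun y => (P y : M)) g)) (fun x => r x) f hG.tf hG.cen
    ⟨⟨fun x => ed_self trivial, fun _ _ => ed_comm, ed_triangle, hp.ed_smul⟩, hm.isOpen_bl,
      h6.continuous, h6.surj, h6.inv, h6.orb, fun y s q hq => by
        obtain ⟨z, a, b⟩ := (hp.image_bl y s).ge ((e _ s).le (mem_image_of_mem _ hq))
        exact ⟨z, a, Subtype.ext b⟩, h6.free⟩
    (fun y s => (hp.finite hU.hs (hc y trivial s) y).subset fun a ha => bl_subset_cbl ha)
    (fun y a s => by
      have := vol_image (comap (fun y => (P y : M)) g) (hp.ld_smul a)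
        (MulAction.injective a).injOn (hc y trivial s).isLindelof (subset_univ _)
        (hm.isOpen_bl y s).measurableSet bl_subset_cbl
      rwa [hp.smul_bl, hp.comap_smul] at this)
    (fun y s hs => ⟨(vol_pos hm trivial (hm.bl_mem_nhds trivial hs)).ne',
      ne_top_of_le_ne_top (vol_lt_top hm (hc y trivial s) cbl_subset).ne
        (measure_mono bl_subset_cbl)⟩)
    (fun x => h2 x x.2)
    (fun y s hs h => doubling hB hm (hs_of_t2 _) (hc.cpt trivial _) hs (by linarith) fun z hz =>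
      (hp.secGe hg).2 (h3 _ (P y).2 _ (bl_mono h ((hp.image_bl y _).le (mem_image_of_mem _ hz)))))
    (fun x => by
      have h7 := h2 x x.2
      refine (P216HV.haus_le_image3 (isVol_vol g) hg hU.cpt.isLindelof subset_rfl
        (ι := Subtype.val) (fun y _ => y.2) fun y _ z _ => (edist_dist y z).trans_le
          (ofReal_dd (hg.ed_ne_top hU.conn subset_rfl y.2 z.2)).le).trans_lt ?_
      rw [e]
      refine (ENNReal.mul_lt_mul_right (by simp) (by simp) ((measure_mono (bl_mono
        (div_le_self h7.le h1))).trans_lt (not_le.1 (h4 x x.2)))).trans_eq ?_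
      rw [← ENNReal.ofReal_ofNat, ← ENNReal.ofReal_mul (by positivity)]
      congr 1
      field_simp)
    f1 f2
  exact f3 h a b

/-- **THIN** -/
theorem thin (hT : P216T.TopGoal) (hB : P216CP.BG E3) : P216C.THIN := fun G _ hG =>
  let ⟨w, h1, h2⟩ := thin_univ hT hB
  ⟨w, h1, fun M _ _ _ _ _ U g hU => h2 G hG M U g ⟨hU.cls.1, hU.isOpen, hU.cpt, hU.hs, hU.conn⟩⟩

end Vale.Agent.P216MG
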