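import Vale.Agent.P216MG.Marg
import Mathlib.MeasureTheory.Constructions.BorelSpace.Metric
import Mathlib.Topology.MetricSpace.IsometricSMul

/-!
The Margulis lemma for isometric actions on spaces with a doubling measure.
-/

universe u

namespace Vale.Agent.P216MG

open Metric MeasureTheory
open scoped ENNReal

variable {G : Type u} [Group G] {X : Type*} [PseudoMetricSpace X] [MulAction G X]
  [IsIsometricSMul G X]

theorem len_act (x : X) (hf : ∀ s, {g : G | dist x (g • x) ≤ s}.Finite) :
    Len fun g : G => dist x (g • x) :=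
  ⟨by simp, fun g h => (dist_triangle _ (g • x) _).trans (by rw [mul_smul, dist_smul]),
    fun g => by rw [← dist_smul g, smul_inv_smul, dist_comm], hf⟩

/-- covering by translates -/
theorem Len.cover {len : G → ℝ} (h : Len len) {s t : ℝ} (hs : 0 ≤ s) {K : ℕ}
    (hK : ∀ T : Finset G, (∀ g ∈ T, len g ≤ t) → (∀ g ∈ T, ∀ g' ∈ T, g ≠ g' → s < len (g⁻¹ * g')) →
      T.card ≤ K) : cnt len t ≤ K * cnt len s := by
  classical
  obtain ⟨T, ⟨h1, h2⟩, hm⟩ := Set.exists_max_image
    {T : Finset G | (∀ g ∈ T, len g ≤ t) ∧ ∀ g ∈ T, ∀ g' ∈ T, g ≠ g' → s < len (g⁻¹ * g')}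
    Finset.card ((h.fin t).finite_subsets.preimage Finset.coe_injective.injOn |>.subset
      fun T hT => hT.1) ⟨∅, by simp⟩
  have h3 : (h.fin t).toFinset ⊆ T.biUnion fun g => (h.fin s).toFinset.image (g * ·) := by
    intro g hg
    rw [Set.Finite.mem_toFinset] at hg
    by_contra hn
    simp only [Finset.mem_biUnion, Finset.mem_image, Set.Finite.mem_toFinset, not_exists,
      not_and] at hn
    have h4 : ∀ a ∈ T, s < len (a⁻¹ * g) := fun a ha =>
      not_le.1 fun h5 => hn a ha _ h5 (mul_inv_cancel_left a g)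
    have h5 : g ∉ T := fun h5 => by simpa [h.one, hs.not_gt] using h4 g h5
    have h6 := hm (insert g T) ⟨by simpa using ⟨hg, h1⟩, fun a ha b hb hab => by
      rcases Finset.mem_insert.1 ha with rfl | ha' <;> rcases Finset.mem_insert.1 hb with rfl | hb'
      · exact absurd rfl hab
      · rw [← h.inv, mul_inv_rev, inv_inv]
        exact h4 b hb'
      · exact h4 a ha'
      · exact h2 a ha' b hb' hab⟩
    rw [Finset.card_insert_of_notMem h5] at h6
    omega
  rw [cnt, cnt, Set.ncard_eq_toFinset_card _ (h.fin t), Set.ncard_eq_toFinset_card _ (h.fin s)]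
  exact (Finset.card_le_card h3).trans ((Finset.card_biUnion_le_card_mul _ _ _
    fun _ _ => Finset.card_image_le).trans (Nat.mul_le_mul_right _ (hK T h1 h2)))

variable [MeasurableSpace X] [OpensMeasurableSpace X]

theorem card_le_of_measure {μ : Measure X} {x : X} {s t : ℝ} {K : ℕ}
    (hμ : ∀ g : G, μ (ball (g • x) s) = μ (ball x s)) (h0 : μ (ball x s) ≠ 0)
    (h1 : μ (ball x s) ≠ ∞) (hK : μ (ball x (t + s)) ≤ K * μ (ball x s)) (T : Finset G)
    (hT : ∀ g ∈ T, dist x (g • x) ≤ t)
    (hT' : ∀ g ∈ T, ∀ g' ∈ T, g ≠ g' → 2 * s ≤ dist x ((g⁻¹ * g') • x)) : T.card ≤ K := by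
  have h2 : μ (⋃ g ∈ T, ball (g • x) s) = T.card * μ (ball x s) := by
    rw [measure_biUnion_finset (fun g hg g' hg' hne => ball_disjoint_ball ?_)
      fun _ _ => measurableSet_ball]
    · simp [hμ]
    · have := hT' g hg g' hg' hne
      rwa [← dist_smul g, mul_smul, smul_inv_smul, two_mul] at this
  have h3 : μ (⋃ g ∈ T, ball (g • x) s) ≤ K * μ (ball x s) :=
    (measure_mono (Set.iUnion₂_subset fun g hg => ball_subset (by
      rw [dist_comm, add_sub_cancel_right]
      exact hT g hg))).trans hK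
  rw [h2] at h3
  exact_mod_cast (ENNReal.mul_le_mul_iff_left h0 h1).1 h3

end Vale.Agent.P216MG

namespace Vale.Agent.P216MG

open Metric MeasureTheory
open scoped ENNReal

/-- **Margulis lemma** for actions: if the invariant measure is doubling at `x` up to scale `r`, then
the elements which move `x` by at most `r / R` commute. -/
theorem marg_act (K : ℕ) : ∃ R : ℝ, 1 ≤ R ∧ ∀ (G : Type u) [Group G] (X : Type*)
    [PseudoMetricSpace X] [MulAction G X] [IsIsometricSMul G X] [MeasurableSpace X]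
    [OpensMeasurableSpace X] (μ : Measure X) (x : X) (r : ℝ), CSA G →
    (∀ s, {g : G | dist x (g • x) ≤ s}.Finite) →
    (∀ (g : G) s, μ (ball (g • x) s) = μ (ball x s)) →
    (∀ s, 0 < s → s ≤ r → μ (ball x s) ≠ 0 ∧ μ (ball x s) ≠ ∞) →
    (∀ s, 0 < s → 2 * s ≤ r → μ (ball x (2 * s)) ≤ K * μ (ball x s)) →
    ∀ a b : G, R * dist x (a • x) ≤ r → R * dist x (b • x) ≤ r → Commute a b := by
  obtain ⟨R, hR1, hR⟩ := marg.{u} (K ^ 3)
  refine ⟨2 * R, by linarith, fun G _ X _ _ _ _ _ μ x r hG hf hμ h0 hd a b ha hb => ?_⟩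
  refine hR G _ (r / 2) hG (len_act x hf) (fun s hs hr => ?_) a b (by linarith) (by linarith)
  refine (len_act x hf).cover hs.le fun T h1 h2 => card_le_of_measure (s := s / 2) (hμ · _)
    (h0 _ (half_pos hs) (by linarith)).1 (h0 _ (half_pos hs) (by linarith)).2 ?_ T h1
    fun g hg g' hg' hne => by
      have := h2 g hg g' hg' hne
      linarith
  calc μ (ball x (2 * s + s / 2)) ≤ μ (ball x (2 * (2 * (2 * (s / 2))))) :=
        measure_mono (ball_subset_ball (by linarith))
    _ ≤ K * (K * (K * μ (ball x (s / 2)))) :=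
        (hd _ (by linarith) (by linarith)).trans (mul_le_mul_right ((hd _ (by linarith)
          (by linarith)).trans (mul_le_mul_right (hd _ (by linarith) (by linarith)) _)) _)
    _ = _ := by push_cast; ring

end Vale.Agent.P216MG
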