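import Vale.Agent.P216.H215.Monogenic
import Mathlib.Algebra.Group.Action.Pointwise.Finset
import Mathlib.GroupTheory.GroupAction.Defs
import Mathlib.Algebra.Group.Subgroup.Actions
import Mathlib.Algebra.Group.Subgroup.ZPowers.Basic
import Mathlib.Tactic.LinearCombination
import Mathlib.Tactic.Ring

/-!
Invariant cocycles are coboundaries on tuples with few colours.
-/

namespace Vale.Agent.P216MG

open Vale.Agent.P216.ASCoh
open scoped Pointwise

variable {X k : Type} [Field k] {q : ℕ}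

/-- cone over a point -/
def cone (b : X) (f : Cochain X k (q + 1)) : Cochain X k q := fun x => f (Fin.cons b x)

theorem cobd_cons (b : X) (f : Cochain X k (q + 1)) (x : Fin (q + 2) → X) :
    cobd f (Fin.cons b x) = f x - cobd (cone b f) x := by
  unfold cobd cone
  rw [Fin.sum_univ_succ, sub_eq_add_neg, ← Finset.sum_neg_distrib]
  congr 1
  · simp
  · refine Finset.sum_congr rfl fun i _ => ?_
    rw [Fin.val_succ, pow_succ, mul_neg_one, neg_mul]
    congr 3
    funext j
    cases j using Fin.cases <;> simp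

theorem cobd_sub (f g : Cochain X k q) : cobd (f - g) = cobd f - cobd g := by
  funext x
  simp [cobd, mul_sub]

theorem cobd_add (f g : Cochain X k q) : cobd (f + g) = cobd f + cobd g := by
  funext x
  simp [cobd, mul_add, Finset.sum_add_distrib]

theorem cobd_cobd : ∀ {q : ℕ} (f : Cochain X k q), cobd (cobd f) = 0
  | 0, f => by
    funext x
    simp only [cobd, Fin.sum_univ_succ, Fin.sum_univ_zero]
    have e : ∀ y : Fin 1 → X, f y = f fun _ => y 0 := fun y => congrArg f (funext fun i => by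
      rw [Subsingleton.elim i 0])
    simp only [e fun _ => x _]
    simp [Fin.succAbove]
    ring
  | q + 1, f => by
    funext x
    have e : cone (x 0) (cobd f) = f - cobd (cone (x 0) f) := funext fun y => cobd_cons _ f y
    rw [← Fin.cons_self_tail x, cobd_cons, e, cobd_sub, cobd_cobd]
    simp

theorem cobd_congr {f g : Cochain X k q} {x : Fin (q + 2) → X}
    (h : ∀ i : Fin (q + 2), f (fun j => x (i.succAbove j)) = g fun j => x (i.succAbove j)) :
    cobd f x = cobd g x := Finset.sum_congr rfl fun i _ => by rw [h i]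

theorem cobd_zero : cobd (0 : Cochain X k q) = 0 := by
  funext x
  simp [cobd]

theorem exists_sum (u : ℤ → k) : ∃ S : ℤ → k, ∀ j, S (j + 1) - S j = u j := by
  refine ⟨fun j => ∑ i ∈ Finset.range j.toNat, u i - ∑ i ∈ Finset.range (-j).toNat, u (-i - 1),
    fun j => ?_⟩
  obtain ⟨n, rfl | rfl⟩ : ∃ n : ℕ, j = n ∨ j = -n - 1 := by
    rcases j with n | n
    exacts [⟨n, Or.inl rfl⟩, ⟨n, Or.inr (by rw [Int.negSucc_eq]; ring)⟩]
  · beta_reduce
    rw [show ((n : ℤ) + 1).toNat = n + 1 by omega, show (-((n : ℤ) + 1)).toNat = 0 by omega,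
      show (-(n : ℤ)).toNat = 0 by omega, Int.toNat_natCast, Finset.sum_range_succ]
    ring
  · beta_reduce
    rw [show (-(n : ℤ) - 1 + 1).toNat = 0 by omega, show (-(-(n : ℤ) - 1 + 1)).toNat = n by omega,
      show (-(n : ℤ) - 1).toNat = 0 by omega, show (-(-(n : ℤ) - 1)).toNat = n + 1 by omega,
      Finset.sum_range_succ]
    ring

variable {G : Type} [Group G]

theorem exists_prim {A : Type} [MulAction G A] {t : G} (ht : ∀ (j : ℤ) (a : A), t ^ j • a = a → j = 0)
    (n : A → k) : ∃ m : A → k, ∀ a, m (t • a) - m a = n a := by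
  let o : A → A := fun a => (Quotient.mk (MulAction.orbitRel (Subgroup.zpowers t) A) a).out
  have h1 : ∀ a, ∃ j : ℤ, t ^ j • o a = a := fun a => by
    obtain ⟨⟨_, j, rfl⟩, h⟩ := (MulAction.orbitRel (Subgroup.zpowers t) A).symm
      (Quotient.mk_out (s := MulAction.orbitRel (Subgroup.zpowers t) A) a)
    exact ⟨j, h⟩
  choose j hj using h1
  have h2 : ∀ a, o (t • a) = o a := fun a =>
    congrArg Quotient.out (Quotient.sound ⟨⟨t, Subgroup.mem_zpowers t⟩, rfl⟩)
  have h3 : ∀ a, j (t • a) = j a + 1 := fun a => by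
    have := ht (-(j a + 1) + j (t • a)) (o a) (by
      rw [zpow_add, mul_smul, ← h2, hj, zpow_neg, inv_smul_eq_iff, h2, add_comm, zpow_add, zpow_one,
        mul_smul, hj])
    omega
  choose S hS using fun a => exists_sum fun i => n (t ^ i • a)
  exact ⟨fun a => S (o a) (j a), fun a => by simp only [h2, h3, hS, hj]⟩

omit [Field k] in
theorem exists_equiv {T A : Type} [MulAction G T] [MulAction G A] {R : T → A → Prop}
    {P : T → (A → k) → Prop} (hR : ∀ (g : G) σ a, R σ a → R (g • σ) (g • a))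
    (hP : ∀ (g : G) σ h, P σ h → P (g • σ) fun a => h (g⁻¹ • a))
    (ex : ∀ σ, ∃ h, P σ h ∧ ∀ (g : G) a, g • σ = σ → R σ a → h (g • a) = h a) :
    ∃ H : T → A → k, (∀ σ, P σ (H σ)) ∧ ∀ (g : G) σ a, R σ a → H (g • σ) (g • a) = H σ a := by
  choose h h1 h2 using ex
  let o : T → T := fun a => (Quotient.mk (MulAction.orbitRel G T) a).out
  have h3 : ∀ σ, ∃ g : G, g • o σ = σ := fun σ =>
    (MulAction.orbitRel G T).symm (Quotient.mk_out (s := MulAction.orbitRel G T) σ)
  choose u hu using h3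
  have h4 : ∀ (g : G) σ, o (g • σ) = o σ := fun g σ =>
    congrArg Quotient.out (Quotient.sound ⟨g, rfl⟩)
  refine ⟨fun σ a => h (o σ) ((u σ)⁻¹ • a), fun σ => by simpa [hu] using hP (u σ) _ _ (h1 (o σ)),
    fun g σ a ha => ?_⟩
  have h5 := h2 (o σ) ((u (g • σ))⁻¹ * g * u σ) ((u σ)⁻¹ • a)
    (by rw [mul_smul, mul_smul, hu, inv_smul_eq_iff, ← h4 g, hu])
    (by simpa [inv_smul_eq_iff.2 (hu σ).symm] using hR (u σ)⁻¹ σ a ha)
  simp only [h4]
  rw [← h5, mul_smul, mul_smul, smul_inv_smul]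

variable {Λ : Type} [DecidableEq Λ] (φ : X → Λ)

/-- the colours of a tuple -/
def col {n : ℕ} (x : Fin n → X) : Finset Λ := Finset.univ.image fun i => φ (x i)

variable {φ}

theorem col_face {n m : ℕ} (x : Fin n → X) (e : Fin m → Fin n) : col φ (fun j => x (e j)) ⊆ col φ x :=
  fun _ h => by
    obtain ⟨j, -, rfl⟩ := Finset.mem_image.1 h
    exact Finset.mem_image.2 ⟨e j, Finset.mem_univ _, rfl⟩

theorem col_pos {n : ℕ} (x : Fin (n + 1) → X) : 0 < (col φ x).card :=
  Finset.card_pos.2 (Finset.univ_nonempty.image _)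

theorem col_cons {n : ℕ} {b : X} {x : Fin n → X} {σ : Finset Λ} (hb : φ b ∈ σ) (h : col φ x ⊆ σ) :
    col φ (Fin.cons b x : Fin (n + 1) → X) ⊆ σ := fun _ h' => by
  obtain ⟨j, -, rfl⟩ := Finset.mem_image.1 h'
  cases j using Fin.cases with
  | zero => exact hb
  | succ j => exact h (Finset.mem_image.2 ⟨j, Finset.mem_univ _, rfl⟩)

theorem cone_spec {σ : Finset Λ} {f : Cochain X k (q + 1)} (hf : ∀ x, col φ x ⊆ σ → cobd f x = 0) :
    ∃ h : Cochain X k q, ∀ x, col φ x ⊆ σ → f x = cobd h x := by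
  by_cases hb : ∃ b, φ b ∈ σ
  · obtain ⟨b, hb⟩ := hb
    exact ⟨cone b f, fun x hx => sub_eq_zero.1 ((cobd_cons b f x).symm.trans
      (hf _ (col_cons hb hx)))⟩
  · exact ⟨0, fun x hx => absurd ⟨x 0, hx (Finset.mem_image.2 ⟨0, Finset.mem_univ _, rfl⟩)⟩ hb⟩

variable [MulAction G X] [MulAction G Λ]

theorem col_smul (hφ : ∀ (g : G) x, φ (g • x) = g • φ x) {n : ℕ} (g : G) (x : Fin n → X) :
    col φ (g • x) = g • col φ x := by
  simp [col, Finset.smul_finset_def, Finset.image_image, Function.comp_def, hφ]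

theorem cobd_smul (f : Cochain X k q) (g : G) (x : Fin (q + 2) → X) :
    cobd f (g • x) = cobd (fun y => f (g • y)) x := rfl

theorem step (hφ : ∀ (g : G) x, φ (g • x) = g • φ x) {S : Set (Finset Λ)} {s : ℕ}
    (hS : ∀ (g : G), ∀ σ ∈ S, g • σ ∈ S) {f : Cochain X k (q + 1)}
    (hf : ∀ (g : G) x, f (g • x) = f x) (h0 : ∀ x, col φ x ∈ S → (col φ x).card ≤ s → f x = 0)
    (ex : ∀ σ ∈ S, σ.card = s + 1 → ∃ h : Cochain X k q, (∀ x, col φ x ⊂ σ → h x = 0) ∧
      (∀ x, col φ x ⊆ σ → f x = cobd h x) ∧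
      ∀ (g : G) x, g • σ = σ → col φ x ⊆ σ → h (g • x) = h x) :
    ∃ h : Cochain X k q, (∀ (g : G) x, h (g • x) = h x) ∧
      ∀ x, col φ x ∈ S → (col φ x).card ≤ s + 1 → f x = cobd h x := by
  obtain ⟨H, h1, h2⟩ := exists_equiv (G := G) (T := Finset Λ) (A := Fin (q + 1) → X) (k := k)
    (R := fun σ x => col φ x ⊆ σ)
    (P := fun σ h => (σ.card ≠ s + 1 → ∀ x, h x = 0) ∧ (σ ∈ S → σ.card = s + 1 →
      (∀ x, col φ x ⊂ σ → h x = 0) ∧ ∀ x, col φ x ⊆ σ → f x = cobd h x))
    (fun g σ x h => by rw [col_smul hφ]; exact Finset.smul_finset_subset_smul_finset h)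
    (fun g σ h hP => by
      rw [Finset.card_smul_finset]
      refine ⟨fun e x => hP.1 e _, fun e e' => ?_⟩
      obtain ⟨h1, h2⟩ := hP.2 (by simpa using hS g⁻¹ _ e) e'
      have h3 : ∀ {n : ℕ} (x : Fin n → X), col φ x ⊆ g • σ → col φ (g⁻¹ • x) ⊆ σ := fun x hx => by
        rw [col_smul hφ]
        exact Finset.subset_smul_finset_iff.1 hx
      refine ⟨fun x hx => h1 _ ⟨h3 x hx.1, fun e => hx.2 ?_⟩,
        fun x hx => (hf g⁻¹ x).symm.trans (h2 _ (h3 x hx))⟩
      rw [col_smul hφ] at e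
      simpa using Finset.smul_finset_subset_smul_finset (a := g) e)
    fun σ => by
      by_cases e : σ ∈ S ∧ σ.card = s + 1
      · obtain ⟨h, h1, h2, h3⟩ := ex σ e.1 e.2
        exact ⟨h, ⟨fun e' => absurd e.2 e', fun _ _ => ⟨h1, h2⟩⟩, h3⟩
      · exact ⟨0, ⟨fun _ _ => rfl, fun a b => absurd ⟨a, b⟩ e⟩, fun _ _ _ _ => rfl⟩
  refine ⟨fun x => H (col φ x) x, fun g x => by simp only [col_smul hφ, h2 g _ x subset_rfl],
    fun x hx hc => ?_⟩
  rcases hc.eq_or_lt with e | e
  · obtain ⟨h3, h4⟩ := (h1 _).2 hx e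
    refine (h4 x subset_rfl).trans (cobd_congr fun i => ?_)
    rcases (col_face (φ := φ) x i.succAbove).eq_or_ssubset with e' | e'
    · rw [e']
    · rw [h3 _ e', (h1 _).1 ((Finset.card_lt_card e').trans_eq e).ne]
  · rw [h0 x hx (by omega), cobd_congr (g := 0) fun i => (h1 _).1
      ((Finset.card_le_card (col_face x i.succAbove)).trans_lt e).ne _, cobd_zero]
    rfl

theorem few (hφ : ∀ (g : G) x, φ (g • x) = g • φ x) (free : ∀ (g : G) (x : X), g • x = x → g = 1)
    (tf : ∀ (g : G) (j : ℤ), j ≠ 0 → g ^ j = 1 → g = 1) (s : ℕ) : ∀ (q : ℕ) (H : Subgroup G)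
    (S : Set (Finset Λ)) (f : Cochain X k (q + 1)), s ≤ q + 1 → (H = ⊥ ∨ 1 ≤ q) →
    (∀ σ ∈ S, ∀ τ ⊆ σ, τ ∈ S) → (∀ g : H, ∀ σ ∈ S, g • σ ∈ S) →
    (∀ σ ∈ S, 2 ≤ σ.card → ∀ g : H, g • σ = σ → g = 1) →
    (∀ σ ∈ S, σ.card = 1 → ∃ t : H, t • σ = σ ∧ ∀ g : H, g • σ = σ → g ∈ Subgroup.zpowers t) →
    (∀ (g : H) x, f (g • x) = f x) → (∀ x, col φ x ∈ S → (col φ x).card ≤ s → cobd f x = 0) →
    ∃ h : Cochain X k q, (∀ (g : H) x, h (g • x) = h x) ∧
      ∀ x, col φ x ∈ S → (col φ x).card ≤ s → f x = cobd h x := by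
  induction s with
  | zero => exact fun q H S f _ _ _ _ _ _ _ _ =>
      ⟨0, fun _ _ => rfl, fun x _ h => absurd (col_pos x) h.not_gt⟩
  | succ s ih =>
    intro q H S f hs hH h1 h2 h3 h4 h5 h6
    obtain ⟨h', h7, h8⟩ := ih q H S f (by omega) hH h1 h2 h3 h4 h5 fun x a b => h6 x a (by omega)
    have h9 : ∀ (g : H) x, (f - cobd h') (g • x) = (f - cobd h') x := fun g x => by
      simp only [Pi.sub_apply, h5, cobd_smul, h7]
    obtain ⟨h, h10, h11⟩ := step (G := H) (s := s) (f := f - cobd h') (fun g => hφ g) h2 h9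
      (fun x a b => sub_eq_zero.2 (h8 x a b)) fun σ hσ e => by
        obtain ⟨c, hc⟩ := cone_spec (φ := φ) (σ := σ) (f := f - cobd h') fun x hx => by
          rw [cobd_sub, cobd_cobd, sub_zero]
          exact h6 x (h1 σ hσ _ hx) ((Finset.card_le_card hx).trans e.le)
        rcases s with _ | s
        · have h0 : ∀ x : Fin (q + 1) → X, ¬ col φ x ⊂ σ := fun x hx => by
            have := Finset.card_lt_card hx
            have := col_pos (φ := φ) x
            omega
          obtain ⟨t, ht, ht'⟩ := h4 σ hσ e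
          by_cases t1 : t = 1
          · exact ⟨c, fun x hx => absurd hx (h0 x), hc, fun g x hg _ => by
              obtain ⟨j, rfl⟩ := ht' g hg
              simp [t1]⟩
          obtain ⟨q, rfl⟩ : ∃ q', q = q' + 1 := Nat.exists_eq_succ_of_ne_zero (by
            rcases hH with rfl | hH
            · exact absurd (Subsingleton.elim _ _) t1
            · omega)
          have hst : ∀ (g : H) {n : ℕ} (x : Fin n → X), g • σ = σ → col φ x ⊆ σ →
              col φ (g • x) ⊆ σ := fun g n x hg hx => by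
            rw [col_smul (G := H) (fun g => hφ g), ← hg]
            exact Finset.smul_finset_subset_smul_finset hx
          obtain ⟨n, hn⟩ := cone_spec (φ := φ) (σ := σ) (f := (fun y => c (t • y)) - c)
            fun x hx => by
              rw [cobd_sub, Pi.sub_apply, ← cobd_smul, ← hc x hx, ← hc _ (hst t x ht hx), h9,
                sub_self]
          obtain ⟨m, hm⟩ := exists_prim (t := t) (fun j (x : Fin (q + 1) → X) hx => by
            by_contra hj
            exact t1 (Subtype.ext (tf t j hj (free _ (x 0) (congrFun hx 0))))) n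
          have hm' : ∀ x, col φ x ⊆ σ → (c - cobd m) (t • x) = (c - cobd m) x := fun x hx => by
            have e1 := hn x hx
            rw [show n = (fun y => m (t • y)) - m from funext fun y => (hm y).symm, cobd_sub] at e1
            simp only [Pi.sub_apply, cobd_smul] at e1 ⊢
            linear_combination e1
          refine ⟨c - cobd m, fun x hx => absurd hx (h0 x), fun x hx => by
            rw [cobd_sub, cobd_cobd, sub_zero, hc x hx], fun g x hg => ?_⟩
          let K : Subgroup H :=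
            { carrier := {g | g • σ = σ ∧
                ∀ x, col φ x ⊆ σ → (c - cobd m) (g • x) = (c - cobd m) x}
              one_mem' := ⟨one_smul _ _, fun x _ => by rw [one_smul]⟩
              mul_mem' := fun {a b} ha hb => ⟨by rw [mul_smul, hb.1, ha.1], fun x hx => by
                rw [mul_smul, ha.2 _ (hst b x hb.1 hx), hb.2 x hx]⟩
              inv_mem' := fun {a} ha => ⟨inv_smul_eq_iff.2 ha.1.symm, fun x hx => by
                rw [← ha.2 _ (hst a⁻¹ x (inv_smul_eq_iff.2 ha.1.symm) hx), smul_inv_smul]⟩ }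
          exact (Subgroup.zpowers_le_of_mem (H := K) ⟨ht, hm'⟩ (ht' g hg)).2 x
        · obtain ⟨q, rfl⟩ : ∃ q', q = q' + 1 := ⟨q - 1, by omega⟩
          obtain ⟨m, -, hm⟩ := ih q ⊥ {τ | τ ⊂ σ} c (by omega) (Or.inl rfl)
            (fun _ a _ b => b.trans_ssubset a) (fun g τ a => by rwa [Subsingleton.elim g 1, one_smul])
            (fun _ _ _ _ _ => Subsingleton.elim _ _)
            (fun _ _ _ => ⟨1, one_smul _ _, fun g _ => Subsingleton.elim 1 g ▸ one_mem _⟩)
            (fun g x => by rw [Subsingleton.elim g 1, one_smul]) fun x a b =>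
              (hc x a.1).symm.trans (sub_eq_zero.2 (h8 x (h1 σ hσ _ a.1) b))
          exact ⟨c - cobd m, fun x hx => sub_eq_zero.2 (hm x hx
            (Nat.le_of_lt_succ ((Finset.card_lt_card hx).trans_eq e))), fun x hx => by
              rw [cobd_sub, cobd_cobd, sub_zero, hc x hx],
            fun g x hg _ => by rw [h3 σ hσ (by omega) g hg, one_smul]⟩
    refine ⟨h' + h, fun g x => by simp only [Pi.add_apply, h7, h10], fun x a b => ?_⟩
    rw [cobd_add, Pi.add_apply, ← h11 x a b]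
    simp

end Vale.Agent.P216MG
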