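import Vale.Agent.P216.Bdl.B1

/-!
Axes of isometries.
-/

set_option linter.unusedSectionVars false

open Set Filter Metric
open scoped Topology

namespace Vale.Agent.P216MG

open Vale.Agent.P216

variable {G X : Type} [Group G] [MetricSpace X] [MulAction G X] [IsIsometricSMul G X]

/-- curves of speed at most one -/
def Lip (σ : ℝ → X) : Prop := ∀ s t, dist (σ s) (σ t) ≤ |s - t|

/-- `σ` is translated by `g` -/
def Per (σ : ℝ → X) (g : G) (L : ℝ) : Prop := ∀ t, σ (t + L) = g • σ t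

/-- closed geodesics -/
structure Ax (σ : ℝ → X) (g : G) (L : ℝ) : Prop where
  geo : IsGeodesicWithSpeed σ 1
  pos : 0 < L
  per : Per σ g L

/-- straight elements -/
def Str (X : Type) [MetricSpace X] [MulAction G X] (g : G) (L : ℝ) : Prop :=
  ∀ (n : ℕ) (y : X), n * L ≤ dist y (g ^ n • y)

variable {σ σ' γ : ℝ → X} {g w : G} {L T a b : ℝ}

theorem Lip.continuous (h : Lip σ) : Continuous σ :=
  (LipschitzWith.of_dist_le_mul (K := 1) fun s t => by simpa [Real.dist_eq] using h s t).continuous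

theorem Lip.le (h : Lip σ) {s t : ℝ} (e : s ≤ t) : dist (σ s) (σ t) ≤ t - s :=
  (h s t).trans_eq (by rw [abs_sub_comm, abs_of_nonneg (sub_nonneg.2 e)])

theorem Lip.iso (h : Lip σ) (e : b - a ≤ dist (σ a) (σ b)) {s t : ℝ} (hs : s ∈ Icc a b)
    (ht : t ∈ Icc a b) : dist (σ s) (σ t) = |s - t| := by
  wlog hst : s ≤ t generalizing s t
  · rw [dist_comm, abs_sub_comm, this ht hs (le_of_not_ge hst)]
  refine (h s t).antisymm ?_
  rw [abs_sub_comm, abs_of_nonneg (sub_nonneg.2 hst)]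
  linarith [dist_triangle4 (σ a) (σ s) (σ t) (σ b), h.le hs.1, h.le ht.2]

theorem Ax.lip (h : Ax σ g L) : Lip σ := fun s t => by simpa using h.geo.dist_le s t

theorem Per.zpow (h : Per σ g L) (m : ℤ) : Per σ (g ^ m) (m * L) := by
  induction m with
  | zero => simp [Per]
  | succ m ih => intro t; rw [zpow_add_one, mul_smul, ← h, ← ih]; congr 1; push_cast; ring
  | pred m ih =>
    intro t
    rw [zpow_sub_one, mul_smul, eq_comm, ← sub_add_cancel t L, h, inv_smul_smul, ← ih]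
    congr 1
    push_cast
    ring

theorem Per.pow (h : Per σ g L) (m : ℕ) : Per σ (g ^ m) (m * L) := by simpa using h.zpow m

theorem Per.smul (h : Per σ g L) {k : G} (e : Commute g k) : Per (k • σ) g L := fun t => by
  simp only [Pi.smul_apply, h t, ← mul_smul, e.eq]

theorem Lip.smul (h : Lip σ) (k : G) : Lip (k • σ) := fun s t => (dist_smul k _ _).trans_le (h s t)

theorem Lip.isometry (h : Lip σ) (hp : Per σ g L) (hL : 0 < L) (hs : Str X g L) : Isometry σ :=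
  Isometry.of_dist_eq fun s t => by
    obtain ⟨n, hn⟩ := exists_nat_ge (|s - t| / L)
    rw [div_le_iff₀ hL, abs_le] at hn
    refine h.iso (a := min s t) (b := min s t + n * L) (by rw [hp.pow n]; simpa using hs n _)
      ⟨min_le_left _ _, ?_⟩ ⟨min_le_right _ _, ?_⟩ <;>
    rcases le_total s t with e | e <;> simp only [min_eq_left, min_eq_right, e] <;> linarith

theorem geo_of_iso (h : Isometry σ) : IsGeodesicWithSpeed σ 1 := fun _ =>
  ⟨1, one_pos, fun s t _ _ => by rw [h.dist_eq, one_mul, Real.dist_eq]⟩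

theorem exists_lip (hX : HasSegments X) (x y : X) :
    ∃ γ : ℝ → X, Lip γ ∧ γ 0 = x ∧ γ (dist x y) = y := by
  obtain ⟨γ, h1, h2, h3⟩ := hX x y
  refine ⟨fun t => γ (projIcc 0 _ (dist_nonneg (x := x) (y := y)) t), fun s t => ?_, by simpa, by simpa⟩
  exact (h3 _ (Subtype.prop _) _ (Subtype.prop _)).trans_le (abs_projIcc_sub_projIcc _)

theorem Lip.cat (h : Lip σ) (h' : Lip σ') (e : σ T = σ' T) :
    Lip fun t => if t ≤ T then σ t else σ' t := fun s t => by
  wlog hst : s ≤ t generalizing s t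
  · rw [dist_comm, abs_sub_comm]; exact this t s (le_of_not_ge hst)
  dsimp only
  split_ifs with h1 h2 h2
  · exact h s t
  · rw [abs_sub_comm, abs_of_nonneg (sub_nonneg.2 hst)]
    linarith [dist_triangle (σ s) (σ T) (σ' t), h.le h1, e ▸ h'.le (le_of_not_ge h2)]
  · exact absurd (hst.trans h2) h1
  · exact h' s t

theorem Lip.shift (h : Lip σ) (b : ℝ) : Lip fun t => σ (t + b) := fun s t => by
  simpa using h (s + b) (t + b)

theorem exists_poly (hX : HasSegments X) {p : ℕ → X} {d : ℝ} (hd : 0 < d) (K : ℕ)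
    (h : ∀ i < K, dist (p i) (p (i + 1)) = d) :
    ∃ γ : ℝ → X, Lip γ ∧ ∀ i ≤ K, γ (i * d) = p i := by
  induction K with
  | zero => exact ⟨fun _ => p 0, fun s t => by simp, by simp⟩
  | succ K ih =>
    obtain ⟨γ, h1, h2⟩ := ih fun i hi => h i (by omega)
    obtain ⟨γ', h3, h4, h5⟩ := exists_lip hX (p K) (p (K + 1))
    refine ⟨_, h1.cat (h3.shift (-(K * d))) (T := K * d) (by simp [h2, h4]), fun i hi => ?_⟩
    rcases Nat.of_le_succ hi with e | rfl
    · rw [if_pos (by gcongr), h2 i e]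
    · rw [if_neg (by push_cast; linarith), ← h5, h K (by omega)]
      congr 1
      push_cast
      ring

theorem Lip.extend (h : Lip γ) (hT : 0 < T) (e : γ T = w • γ 0) :
    ∃ σ : ℝ → X, Lip σ ∧ Per σ w T ∧ ∀ t ∈ Icc 0 T, σ t = γ t := by
  have h1 : ∀ (n : ℕ) t, 0 ≤ t → dist (γ 0) (w ^ n • γ t) ≤ n * T + t := fun n t ht => by
    induction n with
    | zero => simpa using h.le ht
    | succ n ih =>
      have := dist_triangle (γ 0) (γ T) (w ^ (n + 1) • γ t)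
      rw [pow_succ', mul_smul, e, dist_smul, ← e, ← mul_smul, ← pow_succ'] at this
      push_cast
      linarith [h.le hT.le]
  refine ⟨fun t => w ^ toIcoDiv hT 0 t • γ (toIcoMod hT 0 t), fun s t => ?_, fun t => ?_,
    fun t ht => ?_⟩
  · wlog hst : toIcoDiv hT 0 s ≤ toIcoDiv hT 0 t generalizing s t
    · rw [dist_comm, abs_sub_comm]; exact this t s (le_of_not_ge hst)
    have a := toIcoMod_add_toIcoDiv_zsmul hT 0 s
    have b := toIcoMod_add_toIcoDiv_zsmul hT 0 t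
    obtain ⟨n, hn⟩ := Int.le.dest hst
    rw [← hn] at b
    simp only [← hn, zpow_add, mul_smul, dist_smul, zsmul_eq_mul, zpow_natCast] at a b ⊢
    cases n with
    | zero => simpa using (h _ _).trans_eq (by congr 1; push_cast at b; linarith)
    | succ n =>
      have c := dist_triangle (γ (toIcoMod hT 0 s)) (γ T) (w ^ (n + 1) • γ (toIcoMod hT 0 t))
      rw [pow_succ', mul_smul, e, dist_smul, ← e, ← mul_smul, ← pow_succ'] at c
      push_cast at b
      linarith [h1 n _ (toIcoMod_mem_Ico hT 0 t).1, h.le (toIcoMod_mem_Ico' hT s).2.le,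
        neg_le_abs (s - t)]
  · simp only [toIcoDiv_add_right, toIcoMod_add_right, zpow_add_one, mul_smul,
      (Commute.self_zpow w _).symm.eq]
  · rcases ht.2.eq_or_lt with rfl | e'
    · have := toIcoDiv_add_right hT 0 0
      have := toIcoMod_add_right hT 0 0
      simp_all
    · have a : t ∈ Ico 0 (0 + T) := ⟨ht.1, by rwa [zero_add]⟩
      simp [toIcoDiv_eq_of_sub_zsmul_mem_Ico hT (n := 0) (by rwa [zero_smul, sub_zero]),
        (toIcoMod_eq_self hT).2 a]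

theorem Lip.ax (h : Lip σ) (hp : Per σ g L) (hL : 0 < L) (hm : ∀ y : X, L ≤ dist y (g • y)) :
    Ax σ g L := ⟨fun t => ⟨L / 2, half_pos hL, fun s s' a b => by
      rw [abs_lt] at a b
      rw [one_mul]
      exact h.iso (a := t - L / 2) (b := t - L / 2 + L) (by rw [hp]; simpa using hm _)
        ⟨by linarith, by linarith⟩ ⟨by linarith, by linarith⟩⟩, hL, hp⟩

theorem exists_per (hX : HasSegments X) {y : X} (hL : 0 < dist y (g • y)) :
    ∃ σ : ℝ → X, Lip σ ∧ Per σ g (dist y (g • y)) ∧ σ 0 = y := by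
  obtain ⟨γ, h1, h2, h3⟩ := exists_lip hX y (g • y)
  obtain ⟨σ, h4, h5, h6⟩ := h1.extend hL (w := g) (by rw [h2, h3])
  exact ⟨σ, h4, h5, (h6 0 ⟨le_rfl, hL.le⟩).trans h2⟩

theorem Str.conj (h : Str X g L) (k : G) (m : ℕ) : Str X (k * g ^ m * k⁻¹) (m * L) := fun n y => by
  have := h (m * n) (k⁻¹ • y)
  rw [← dist_smul k, smul_inv_smul, ← mul_smul, ← mul_smul, pow_mul, ← conj_pow] at this
  push_cast at this
  linarith

theorem dist_pow (g : G) (y : X) (n : ℕ) : dist y (g ^ n • y) ≤ n * dist y (g • y) := by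
  induction n with
  | zero => simp
  | succ n ih =>
    have := dist_triangle y (g ^ n • y) (g ^ (n + 1) • y)
    rw [pow_succ, mul_smul, dist_smul, ← mul_smul, ← pow_succ] at this
    push_cast
    linarith

theorem not_str (h : ¬ Str X g L) (C : ℝ) :
    ∃ m₀ : ℕ, ∀ m ≥ m₀, ∃ y : X, dist y (g ^ m • y) + C < m * L := by
  simp only [Str, not_forall, not_le] at h
  obtain ⟨n, y, h⟩ := h
  have hn : 0 < n := Nat.pos_of_ne_zero (by rintro rfl; simp at h)
  obtain ⟨q₀, hq⟩ := exists_nat_gt ((C + n * (dist y (g • y) + |L|)) / (n * L - dist y (g ^ n • y)))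
  refine ⟨q₀ * n, fun m hm => ⟨y, ?_⟩⟩
  rw [div_lt_iff₀ (sub_pos.2 h)] at hq
  have h1 : (q₀ : ℝ) ≤ (m / n : ℕ) := Nat.cast_le.2 ((Nat.le_div_iff_mul_le hn).2 hm)
  have h2 : ((m % n : ℕ) : ℝ) ≤ n := Nat.cast_le.2 (Nat.mod_lt m hn).le
  have h3 : (m : ℝ) = n * (m / n : ℕ) + (m % n : ℕ) := by exact_mod_cast (Nat.div_add_mod m n).symm
  have h4 := dist_triangle y ((g ^ n) ^ (m / n) • y) ((g ^ n) ^ (m / n) • g ^ (m % n) • y)
  rw [dist_smul, ← mul_smul, ← pow_mul g n, ← pow_add, Nat.div_add_mod, pow_mul] at h4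
  have h5 := mul_le_mul_of_nonneg_right h1 (sub_pos.2 h).le
  have h6 := mul_le_mul_of_nonneg_right h2 (add_nonneg (dist_nonneg (x := y) (y := g • y))
    (abs_nonneg L))
  have h7 := mul_le_mul_of_nonneg_left (neg_abs_le L) (m % n).cast_nonneg
  rw [h3]
  linarith [dist_pow (g ^ n) y (m / n), dist_pow g y (m % n)]

variable (G X) in
/-- universal coverings of closed manifolds with finitely many closed geodesics -/
structure Nice {ι : Type} (c : ι → ℝ → X) (a : ι → G) (l : ι → ℝ) (ρ : ℝ) : Prop where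
  free : ∀ (g : G) (x : X), g • x = x → g = 1
  fin : ∀ K L : Set X, IsCompact K → IsCompact L → {g : G | ∃ x ∈ K, g • x ∈ L}.Finite
  coc : ∃ K : Set X, IsCompact K ∧ ∀ x, ∃ g : G, g • x ∈ K
  seg : HasSegments X
  nb : NonBranching X
  pos : 0 < ρ
  mid : ∀ x y m m' : X, dist x y < ρ → dist x m = dist x y / 2 → dist m y = dist x y / 2 →
    dist x m' = dist x y / 2 → dist m' y = dist x y / 2 → m = m'
  ax : ∀ j, Ax (c j) (a j) (l j)
  prim : ∀ j (g : G) β, Per (c j) g β → ∃ m : ℤ, β = m * l j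
  all : ∀ (σ : ℝ → X) (g : G) L, Ax σ g L → ∃ j, ∃ (k : G) (β : ℝ), ∀ t, σ t = k • c j (t + β)

namespace Nice

variable {ι : Type} [Finite ι] {c : ι → ℝ → X} {a : ι → G} {l : ι → ℝ} {ρ : ℝ}
  (h : Nice G X c a l ρ) [ProperSpace X]
include h

theorem stab {j : ι} {k : G} {β : ℝ} (e : ∀ t, σ t = k • c j (t + β)) (hp : Per σ g L) :
    ∃ m : ℤ, L = m * l j ∧ g = k * a j ^ m * k⁻¹ := by
  have h1 : Per (c j) (k⁻¹ * g * k) L := fun t => by
    have := hp (t - β)
    rw [e, e, sub_add_cancel, show t - β + L + β = t + L by ring] at this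
    rw [mul_smul, mul_smul, ← this, inv_smul_smul]
  obtain ⟨m, rfl⟩ := h.prim j _ _ h1
  refine ⟨m, rfl, ?_⟩
  have := h.free ((a j ^ m)⁻¹ * (k⁻¹ * g * k)) (c j 0) (by
    rw [mul_smul, ← h1, (h.ax j).per.zpow, inv_smul_smul])
  rw [inv_mul_eq_one.1 this]
  group

theorem cls (C : ℝ) : ∃ F : Set G, F.Finite ∧ ∀ (σ : ℝ → X) g L, Ax σ g L →
    (∀ y : X, L ≤ dist y (g • y) + C) → Str X g L ∨ ∃ b ∈ F, IsConj g b := by
  have h1 : ∀ j, ∃ m₀ : ℕ, ¬ Str X (a j) (l j) →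
      ∀ m ≥ m₀, ∃ y : X, dist y (a j ^ m • y) + C < m * l j := fun j => by
    by_cases e : Str X (a j) (l j)
    · exact ⟨0, fun e' => absurd e e'⟩
    · exact (not_str e C).imp fun _ a _ => a
  choose m₀ h1 using h1
  refine ⟨⋃ j, (a j ^ ·) '' Iio (m₀ j), finite_iUnion fun j => (finite_Iio _).image _,
    fun σ g L h2 h3 => ?_⟩
  obtain ⟨j, k, β, e⟩ := h.all σ g L h2
  obtain ⟨m, rfl, rfl⟩ := h.stab e h2.per
  obtain ⟨m, rfl⟩ := Int.eq_ofNat_of_zero_le
    (Int.cast_nonneg_iff.1 ((mul_pos_iff_of_pos_right (h.ax j).pos).1 h2.pos).le)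
  simp only [zpow_natCast, Int.cast_natCast] at h3 ⊢
  refine or_iff_not_imp_left.2 fun h4 => ⟨a j ^ m, mem_iUnion.2 ⟨j, m, mem_Iio.2 (not_le.1 fun h5 => ?_), rfl⟩,
    (isConj_iff.2 ⟨k, rfl⟩).symm⟩
  obtain ⟨y, hy⟩ := h1 j (fun e => h4 (e.conj k m)) m h5
  have := h3 (k • y)
  rw [mul_smul, inv_smul_smul, mul_smul, dist_smul] at this
  linarith

theorem cocomm (w : G) (R : ℝ) : ∃ K : Set X, IsCompact K ∧
    ∀ y, dist y (w • y) ≤ R → ∃ k : G, Commute w k ∧ k • y ∈ K := by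
  obtain ⟨K, h1, h2⟩ := h.coc
  have h3 : ∀ v : G, ∃ u : G, IsConj w v → u * w * u⁻¹ = v := fun v => by
    by_cases e : IsConj w v
    · exact (isConj_iff.1 e).imp fun _ a _ => a
    · exact ⟨1, fun e' => absurd e' e⟩
  choose u h3 using h3
  refine ⟨_, (h.fin K _ h1 (h1.cthickening (r := R))).isCompact_biUnion fun v _ =>
    h1.image (continuous_const_smul (u v)⁻¹), fun y hy => ?_⟩
  obtain ⟨g, hg⟩ := h2 y
  refine ⟨(u (g * w * g⁻¹))⁻¹ * g, ?_, mem_iUnion₂.2 ⟨g * w * g⁻¹, ⟨_, hg,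
    mem_cthickening_of_dist_le _ _ _ _ hg ?_⟩, _, hg, (mul_smul _ _ _).symm⟩⟩
  · have := h3 _ (isConj_iff.2 ⟨g, rfl⟩)
    generalize u (g * w * g⁻¹) = v at this
    calc w * (v⁻¹ * g) = v⁻¹ * (v * w * v⁻¹) * g := by group
      _ = _ := by rw [this]; group
  · rwa [mul_smul, inv_smul_smul, mul_smul, dist_smul, dist_comm]

omit h in
theorem dist_comm_smul {k : G} (e : Commute w k) (y : X) :
    dist (k • y) (w • k • y) = dist y (w • y) := by
  rw [← mul_smul, e.eq, mul_smul, dist_smul]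

theorem exists_min [Nonempty X] (hw : w ≠ 1) :
    ∃ (σ : ℝ → X) (L : ℝ), Ax σ w L ∧ ∀ y : X, L ≤ dist y (w • y) := by
  obtain ⟨o⟩ := ‹Nonempty X›
  obtain ⟨K, h1, h2⟩ := h.cocomm w (dist o (w • o))
  obtain ⟨k, h3, h4⟩ := h2 o le_rfl
  obtain ⟨y, h5, h6⟩ := h1.exists_isMinOn ⟨_, h4⟩ (f := fun y => dist y (w • y)) (by fun_prop)
  have h7 : ∀ y' : X, dist y (w • y) ≤ dist y' (w • y') := fun y' => by
    rcases le_total (dist y' (w • y')) (dist o (w • o)) with e | e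
    · obtain ⟨k, a, b⟩ := h2 y' e
      exact (h6 b).trans_eq (dist_comm_smul a _)
    · exact ((h6 h4).trans_eq (dist_comm_smul h3 _)).trans e
  have h8 := dist_pos.2 fun e => hw (h.free w y (Eq.symm e))
  obtain ⟨σ, a, b, -⟩ := exists_per h.seg h8
  exact ⟨σ, _, a.ax b h8 h7, h7⟩

theorem fin_lines {K : Set X} (hK : IsCompact K) :
    {A | (∃ (σ : ℝ → X) (g : G) (L : ℝ), Ax σ g L ∧ A = range σ) ∧ (A ∩ K).Nonempty}.Finite := by
  refine (finite_iUnion fun j => (h.fin _ K (isCompact_Icc.image (h.ax j).lip.continuous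
    (s := Icc 0 (l j))) hK).image fun k => range (k • c j)).subset ?_
  rintro _ ⟨⟨σ, g, L, h1, rfl⟩, _, ⟨t, rfl⟩, h2⟩
  obtain ⟨j, k, β, e⟩ := h.all σ g L h1
  have h3 : ∀ t, σ t = (k * a j ^ toIcoDiv (h.ax j).pos 0 (t + β)) •
      c j (toIcoMod (h.ax j).pos 0 (t + β)) := fun t => by
    rw [mul_smul, ← (h.ax j).per.zpow, ← zsmul_eq_mul, toIcoMod_add_toIcoDiv_zsmul, e]
  refine mem_iUnion.2 ⟨j, _, ⟨_, ⟨_, Ico_subset_Icc_self (toIcoMod_mem_Ico' _ _), rfl⟩,
    h3 t ▸ h2⟩, ?_⟩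
  generalize toIcoDiv (h.ax j).pos 0 (t + β) = m
  ext x
  refine ⟨fun ⟨s, hs⟩ => ⟨s + m * l j - β, ?_⟩, fun ⟨s, hs⟩ => ⟨s + β - m * l j, ?_⟩⟩
  · rw [e, sub_add_cancel, (h.ax j).per.zpow, ← mul_smul, ← hs, Pi.smul_apply]
  · rw [Pi.smul_apply, mul_smul, ← (h.ax j).per.zpow, sub_add_cancel, ← e, hs]

theorem ax_eq (hs : Str X w L) (h1 : Ax σ w L) (h2 : Ax σ' w L) (e : σ 0 = σ' 0) : σ = σ' := by
  have h3 := h1.lip.cat h2.lip e
  have h4 : IsGeodesicWithSpeed (fun t => if t ≤ 0 then σ t else σ' t) 1 := fun t => by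
    obtain ⟨n, hn⟩ := exists_nat_gt ((|t| + 1) / L)
    rw [div_lt_iff₀ h1.pos] at hn
    refine ⟨1, one_pos, fun s s' a b => ?_⟩
    rw [abs_lt] at a b
    have := abs_nonneg t
    rw [one_mul]
    refine h3.iso (a := -(n * L)) (b := n * L) ?_ ⟨by linarith [neg_abs_le t],
      by linarith [le_abs_self t]⟩ ⟨by linarith [neg_abs_le t], by linarith [le_abs_self t]⟩
    have a1 := h1.per.pow n (-(n * L))
    have a2 := h2.per.pow n 0
    have a3 := hs (n + n) (σ (-(n * L)))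
    rw [neg_add_cancel] at a1
    rw [pow_add, mul_smul, ← a1, e, ← a2, zero_add] at a3
    rw [if_pos (by linarith), if_neg (by linarith)]
    push_cast at a3
    linarith
  exact (h.nb _ _ h1.geo h4 (-1) 0 (by simp) fun t ht => (if_pos ht.2.le).symm).trans
    (h.nb _ _ h4 h2.geo 0 1 one_pos fun t ht => if_neg ht.1.not_ge)

omit h in
theorem _root_.Vale.Agent.P216MG.Ax.shift (h1 : Ax σ w L) (b : ℝ) :
    Ax (fun t => σ (t + b)) w L :=
  ⟨by simpa using h1.geo.comp_affine (Or.inl rfl) b, h1.pos, fun t => by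
    rw [add_right_comm, h1.per]⟩

omit h in
theorem _root_.Vale.Agent.P216MG.Ax.smul (h1 : Ax σ w L) {k : G} (e : Commute w k) :
    Ax (k • σ) w L :=
  ⟨fun t => (h1.geo t).imp fun _ a => ⟨a.1, fun s s' b c => (dist_smul k _ _).trans
    (a.2 s s' b c)⟩, h1.pos, h1.per.smul e⟩

theorem ax_shift (hs : Str X w L) (h1 : Ax σ w L) (h2 : Ax σ' w L) {s s' : ℝ} (e : σ s = σ' s')
    (t : ℝ) : σ t = σ' (t + (s' - s)) := by
  simpa [add_comm, add_left_comm, sub_eq_add_neg] using congrFun (h.ax_eq hs (h1.shift s) (h2.shift s')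
    (by simpa using e)) (t - s)

theorem range_eq (hs : Str X w L) (h1 : Ax σ w L) (h2 : Ax σ' w L) {s s' : ℝ} (e : σ s = σ' s') :
    range σ = range σ' :=
  Subset.antisymm (range_subset_iff.2 fun t => ⟨_, (h.ax_shift hs h1 h2 e t).symm⟩)
    (range_subset_iff.2 fun t => ⟨_, (h.ax_shift hs h2 h1 e.symm t).symm⟩)

theorem sep (hs : Str X w L) : ∃ δ > 0, ∀ (σ σ' : ℝ → X) s s', Ax σ w L → Ax σ' w L →
    dist (σ s) (σ' s') < δ → range σ = range σ' := by
  obtain ⟨K, h1, h2⟩ := h.cocomm w L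
  have h3 := h.fin_lines (h1.cthickening (r := 1))
  have h4 : ∀ A B : Set X, ∀ᶠ δ in 𝓝[>] (0 : ℝ), IsClosed A → IsClosed B → Disjoint A B →
      ∀ x ∈ A ∩ K, ∀ y ∈ B, δ ≤ dist x y := fun A B => by
    by_cases e : IsClosed A ∧ IsClosed B ∧ Disjoint A B
    · obtain ⟨δ, a, b⟩ := (h1.inter_left e.1).exists_thickening_subset_open e.2.1.isOpen_compl
        (inter_subset_left.trans e.2.2.subset_compl_right)
      filter_upwards [Ioo_mem_nhdsGT a] with ε c _ _ _ x hx y hy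
      exact c.2.le.trans (not_lt.1 fun d => b (mem_thickening_iff.2 ⟨x, hx, dist_comm x y ▸ d⟩) hy)
    · exact Eventually.of_forall fun _ a b c => absurd ⟨a, b, c⟩ e
  obtain ⟨δ, h5, h6⟩ := (((eventually_all_finite h3).2 fun A _ => (eventually_all_finite h3).2
    fun B _ => h4 A B).and (Ioo_mem_nhdsGT one_pos)).exists
  refine ⟨δ, h6.1, fun σ σ' s s' a b c => ?_⟩
  obtain ⟨k, h7, h8⟩ := h2 (σ s) (by rw [← a.per]; simpa using a.lip.le (le_add_of_nonneg_right a.pos.le))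
  have a' := a.smul h7
  have b' := b.smul h7
  obtain ⟨_, ⟨t, rfl⟩, t', e⟩ := not_disjoint_iff.1 fun e => (h5 _ ⟨⟨_, _, _, a', rfl⟩, _,
    ⟨s, rfl⟩, self_subset_cthickening _ h8⟩ _ ⟨⟨_, _, _, b', rfl⟩, _, ⟨s', rfl⟩,
      mem_cthickening_of_dist_le _ _ _ _ h8 ((dist_smul k _ _).trans_le
        ((dist_comm _ _).trans_lt (c.trans h6.2)).le)⟩
      (a'.lip.isometry a'.per a.pos hs).isClosedEmbedding.isClosed_range
      (b'.lip.isometry b'.per a.pos hs).isClosedEmbedding.isClosed_range e _ ⟨⟨s, rfl⟩, h8⟩ _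
      ⟨s', rfl⟩).not_gt ((dist_smul k _ _).trans_lt c)
  exact h.range_eq hs a b (smul_left_cancel k e.symm)

theorem near (hs : Str X w L) (hL : 0 < L) {δ : ℝ} (hδ : 0 < δ) : ∃ ε > 0, ∀ y : X,
    dist y (w • y) < L + ε → ∃ σ : ℝ → X, Ax σ w L ∧ dist y (σ 0) < δ := by
  obtain ⟨K, h1, h2⟩ := h.cocomm w (L + 1)
  have h0 : ∀ y : X, L ≤ dist y (w • y) := fun y => by simpa using hs 1 y
  obtain ⟨ε, h3, h4⟩ := (h1.diff (isOpen_thickening (δ := δ) (E := {y | dist y (w • y) = L}))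
    ).exists_forall_le' (f := fun y => dist y (w • y)) (a := L) (by fun_prop) fun y hy =>
      (h0 y).lt_of_ne fun e => hy.2 (self_subset_thickening hδ _ e.symm)
  refine ⟨min (ε - L) 1, lt_min (sub_pos.2 h3) one_pos, fun y hy => ?_⟩
  obtain ⟨k, h5, h6⟩ := h2 y (by linarith [min_le_right (ε - L) 1])
  obtain ⟨z, h7, h8⟩ := mem_thickening_iff.1 (not_not.1 fun e => (h4 _ ⟨h6, e⟩).not_gt
    ((dist_comm_smul h5 y).trans_lt (by linarith [min_le_left (ε - L) 1])))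
  obtain ⟨σ, a, b, rfl⟩ := exists_per h.seg (hL.trans_eq (Eq.symm h7))
  rw [show dist (σ 0) (w • σ 0) = L from h7] at b
  exact ⟨_, (a.ax b hL h0).smul h5.inv_right, by rwa [← dist_smul k, Pi.smul_apply, smul_inv_smul]⟩

/-- different axes cannot be joined in the set of points with almost minimal displacement -/
theorem conn (hs : Str X w L) (hL : 0 < L) : ∃ ε > 0, ∀ S : Set X, IsPreconnected S →
    (∀ y ∈ S, dist y (w • y) < L + ε) → ∀ (σ σ' : ℝ → X) s s', Ax σ w L → Ax σ' w L →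
    σ s ∈ S → σ' s' ∈ S → range σ = range σ' := by
  obtain ⟨δ, h1, h2⟩ := h.sep hs
  obtain ⟨ε, h3, h4⟩ := h.near hs hL (half_pos h1)
  refine ⟨ε, h3, fun S a b σ σ' s s' c d e f => ?_⟩
  have h5 := a.subset_left_of_subset_union
    (isOpen_thickening (δ := δ / 2) (E := range σ)) (isOpen_thickening (δ := δ / 2)
      (E := {y | ∃ τ : ℝ → X, Ax τ w L ∧ range τ ≠ range σ ∧ τ 0 = y}))
    (disjoint_left.2 fun y a b => ?_) (fun y hy => ?_)
    ⟨_, e, self_subset_thickening (half_pos h1) _ ⟨s, rfl⟩⟩ f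
  · obtain ⟨_, ⟨t, rfl⟩, h5⟩ := mem_thickening_iff.1 h5
    exact (h2 _ _ s' t d c (by linarith)).symm
  · obtain ⟨_, ⟨t, rfl⟩, a⟩ := mem_thickening_iff.1 a
    obtain ⟨_, ⟨τ, b1, b2, rfl⟩, b⟩ := mem_thickening_iff.1 b
    exact b2 (h2 _ _ 0 t b1 c (by linarith [dist_triangle_left (τ 0) (σ t) y]))
  · obtain ⟨τ, a1, a2⟩ := h4 y (b y hy)
    by_cases e : range τ = range σ
    · exact Or.inl (mem_thickening_iff.2 ⟨_, e ▸ ⟨0, rfl⟩, a2⟩)
    · exact Or.inr (mem_thickening_iff.2 ⟨_, ⟨τ, a1, e, rfl⟩, a2⟩)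

end Nice

end Vale.Agent.P216MG
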