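import Vale.Agent.P216MG.Ax
import Mathlib.Algebra.Order.Chebyshev
import Mathlib.AlgebraicTopology.FundamentalGroupoid.SimplyConnected

/-!
Curve shortening on twisted polygons; uniqueness of the axis.
-/

set_option linter.unusedSectionVars false

open Set Filter Metric
open scoped Topology

namespace Vale.Agent.P216MG

open Vale.Agent.P216

variable {G X : Type} [Group G] [MetricSpace X] [MulAction G X] [IsIsometricSMul G X]

/-- twisted polygons with short edges -/
def Pol (X : Type) [MetricSpace X] [MulAction G X] (w : G) (K : ℕ) (δ : ℝ) : Set (ℕ → X) :=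
  {p | (∀ i, p (i + K) = w • p i) ∧ ∀ i, dist (p i) (p (i + 1)) ≤ δ}

/-- energy -/
def En (K : ℕ) (p : ℕ → X) : ℝ := ∑ i ∈ Finset.range K, dist (p i) (p (i + 1)) ^ 2

theorem continuous_En (K : ℕ) : Continuous (En (X := X) K) := by
  unfold En
  fun_prop

theorem per_ind {P : ℕ → Prop} {K : ℕ} (hK : 0 < K) (h : ∀ i, P i → P (i + K))
    (h0 : ∀ i < K, P i) (i : ℕ) : P i := by
  induction i using Nat.strong_induction_on with
  | _ i ih =>
    rcases lt_or_ge i K with e | e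
    · exact h0 i e
    · exact Nat.sub_add_cancel e ▸ h _ (ih _ (by omega))

theorem Pol.edge {w : G} {K : ℕ} {p : ℕ → X} (h : ∀ i, p (i + K) = w • p i) (i : ℕ) :
    dist (p (i + K)) (p (i + K + 1)) = dist (p i) (p (i + 1)) := by
  rw [add_right_comm, h, h, dist_smul]

theorem disp_sq {w : G} {K : ℕ} {p : ℕ → X} (h : ∀ i, p (i + K) = w • p i) :
    dist (p 0) (w • p 0) ^ 2 ≤ K * En K p := by
  rw [← h, zero_add]
  exact (pow_le_pow_left₀ dist_nonneg (dist_le_range_sum_dist p K) 2).trans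
    (by simpa [En] using sq_sum_le_card_mul_sum_sq (s := Finset.range K)
          (f := fun i => dist (p i) (p (i + 1))))

theorem exists_strip [SimplyConnectedSpace X] (z : G) {c c' : ℝ → X} (h : Continuous c)
    (h' : Continuous c') (e : c 1 = z • c 0) (e' : c' 1 = z • c' 0) :
    ∃ H : ℝ × ℝ → X, UniformContinuousOn H (univ ×ˢ Icc 0 1) ∧ (∀ s, H (s, 1) = z • H (s, 0)) ∧
      (∀ s ≤ 0, ∀ t ∈ Icc (0 : ℝ) 1, H (s, t) = c t) ∧
      ∀ s ≥ 1, ∀ t ∈ Icc (0 : ℝ) 1, H (s, t) = c' t := by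
  let β := (PathConnectedSpace.somePath (c 0) (c' 0)).extend
  let b : ℝ → X := fun t => if t ≤ 1 then β t else if t ≤ 2 then c' (t - 1) else z • β (3 - t)
  have hb : Continuous b := Continuous.if_le (by fun_prop) (Continuous.if_le (by fun_prop)
    (by fun_prop) continuous_id continuous_const fun t a => by norm_num [a, β, e'])
    continuous_id continuous_const fun t a => by norm_num [a, β]
  obtain ⟨F⟩ := SimplyConnectedSpace.paths_homotopic (x := c 0) (y := z • c 0)
    ⟨⟨fun t => c t, by fun_prop⟩, rfl, e⟩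
    ⟨⟨fun t => b (3 * t), by fun_prop⟩, by simp [b, β], by norm_num [b, β]⟩
  let P := projIcc (0 : ℝ) 1 zero_le_one
  have hP : Continuous P := continuous_projIcc
  obtain ⟨H, hH, h1, h2, h3⟩ : ∃ H : ℝ × ℝ → X, Continuous H ∧ (∀ s, H (s, 1) = z • H (s, 0)) ∧
      (∀ t ∈ Icc (0 : ℝ) 1, H (0, t) = c t) ∧ ∀ s ≥ 1, ∀ t ∈ Icc (0 : ℝ) 1, H (s, t) = b (3 * t) :=
    ⟨fun q => F (P q.1, P q.2), by fun_prop, fun s => by simp [P], fun t ht => by
      simp [P, projIcc_of_mem _ ht], fun s hs t ht => by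
      simp [P, projIcc_of_mem _ ht, projIcc_of_right_le _ hs]⟩
  let H' : ℝ × ℝ → X := fun q => H (2 * q.1, q.2 + P (2 * q.1 - 1) * (1 - 2 * q.2) / 3)
  refine ⟨fun q => H' (P q.1, q.2), ((isCompact_Icc (a := (0 : ℝ)) (b := 1)).prod
    (isCompact_Icc (a := (0 : ℝ)) (b := 1))).uniformContinuousOn_of_continuous
      (by fun_prop : Continuous H').continuousOn
      |>.comp ((uniformContinuous_subtype_val.comp
        (LipschitzWith.projIcc _).uniformContinuous).prodMap uniformContinuous_id).uniformContinuousOn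
      fun q hq => ⟨(P q.1).2, hq.2⟩, fun s => ?_, fun s hs t ht => ?_, fun s hs t ht => ?_⟩
  · dsimp only [H']
    generalize (P s : ℝ) = s
    rcases le_total (2 * s) 1 with a | a
    · simp [P, projIcc_of_le_left _ (sub_nonpos.2 a), h1]
    · obtain ⟨r, a1, a2⟩ := P (2 * s - 1)
      rw [h3 _ a _ ⟨by linarith, by linarith⟩, h3 _ a _ ⟨by linarith, by linarith⟩]
      dsimp only [b]
      rw [if_neg (by linarith), if_pos (c := _ ≤ (1 : ℝ)) (by linarith)]
      split_ifs with a3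
      · obtain rfl : r = 1 := by linarith
        norm_num [β, e']
      · congr 2
        ring
  · have a : (P (-1) : ℝ) = 0 := congrArg Subtype.val (projIcc_of_le_left _ (by norm_num))
    have a' : (P s : ℝ) = 0 := congrArg Subtype.val (projIcc_of_le_left _ hs)
    simp [H', a, a', h2 t ht]
  · obtain ⟨a1, a2⟩ := ht
    have a : (P (2 * 1 - 1) : ℝ) = 1 := congrArg Subtype.val (projIcc_of_right_le _ (by norm_num))
    have a' : (P s : ℝ) = 1 := congrArg Subtype.val (projIcc_of_right_le _ hs)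
    simp only [H', a, a']
    rw [h3 _ (by norm_num) _ ⟨by linarith, by linarith⟩]
    dsimp only [b]
    rw [if_pos (c := _ ≤ (2 : ℝ)) (by linarith)]
    split_ifs with a3
    · obtain rfl : t = 0 := by linarith
      norm_num [β]
    · congr 1
      ring

/-- the family of polygons from one axis to another one -/
theorem exists_family [SimplyConnectedSpace X] {z : G} {σ σ' : ℝ → X} {L δ : ℝ} (h : Ax σ z L)
    (h' : Ax σ' z L) (hδ : 0 < δ) : ∃ (N : ℕ) (C : ℝ), 0 < N ∧ ∀ n : ℕ, 0 < n →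
      ∃ S ⊆ Pol X (z ^ n) (n * N) δ, IsPreconnected S ∧
        (∀ p ∈ S, En (n * N) p ≤ n * N * (L / N) ^ 2 + C) ∧
        (∃ p ∈ S, ∀ i, p i ∈ range σ) ∧ ∃ p ∈ S, ∀ i, p i ∈ range σ' := by
  obtain ⟨H, h1, h2, h3, h4⟩ := exists_strip z (c := fun t => σ (L * t)) (c' := fun t => σ' (L * t))
    (h.lip.continuous.comp (by fun_prop)) (h'.lip.continuous.comp (by fun_prop))
    (by simpa using h.per 0) (by simpa using h'.per 0)
  obtain ⟨η, h5, h6⟩ := uniformContinuousOn_iff.1 h1 δ hδ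
  obtain ⟨N, hN⟩ := exists_nat_one_div_lt h5
  rw [← Nat.cast_succ] at hN
  have N0 := N.succ_pos
  generalize N.succ = N at hN N0
  have N1 : (0 : ℝ) < N := by exact_mod_cast N0
  refine ⟨N, 2 * (N + 2) * δ ^ 2, N0, fun n hn => ?_⟩
  let a : ℕ → ℝ := fun i => |(i : ℝ) - n * N / 2| / N
  let p : ℝ → ℕ → X := fun u i => z ^ (i / N) • H (u - a (i % (n * N)), (i % N : ℕ) / N)
  have hm : ∀ i, ((i % N : ℕ) : ℝ) / N ∈ Icc (0 : ℝ) 1 ∧
      ((i % N : ℕ) + 1 : ℝ) / N ∈ Icc (0 : ℝ) 1 := fun i => by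
    have : ((i % N : ℕ) + 1 : ℝ) ≤ N := by exact_mod_cast Nat.mod_lt i N0
    exact ⟨⟨by positivity, (div_le_one N1).2 (by linarith)⟩, by positivity, (div_le_one N1).2 this⟩
  have hp : ∀ u i, p u (i + n * N) = z ^ n • p u i := fun u i => by
    simp only [p, Nat.add_mod_right, Nat.add_mul_mod_self_right, Nat.add_mul_div_right _ _ N0,
      add_comm (i / N), pow_add, mul_smul]
  have he : ∀ u, ∀ i < n * N, dist (p u i) (p u (i + 1)) =
      dist (H (u - a i, (i % N : ℕ) / N)) (H (u - a (i + 1), ((i % N : ℕ) + 1) / N)) := by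
    intro u i hi
    have e : a ((i + 1) % (n * N)) = a (i + 1) := by
      rcases (Nat.succ_le_of_lt hi).eq_or_lt with e | e
      · rw [Nat.succ_eq_add_one] at e
        simp only [e, Nat.mod_self, a]
        push_cast
        rw [abs_sub_comm]
        congr 2
        ring
      · rw [Nat.mod_eq_of_lt e]
    simp only [p, Nat.mod_eq_of_lt hi, e]
    have b1 := Nat.div_add_mod i N
    have b2 := Nat.div_add_mod (i + 1) N
    by_cases e' : N ∣ i + 1
    · rw [Nat.succ_div_of_dvd e', Nat.mod_eq_zero_of_dvd e'] at b2 ⊢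
      have : ((i % N : ℕ) + 1 : ℝ) = N := by exact_mod_cast (by linarith : i % N + 1 = N)
      rw [pow_succ, mul_smul, dist_smul, this, div_self N1.ne', h2, Nat.cast_zero, zero_div]
    · rw [Nat.succ_div_of_not_dvd e'] at b2 ⊢
      rw [dist_smul, show (i + 1) % N = i % N + 1 by omega, Nat.cast_succ]
  have ha : ∀ i, |a i - a (i + 1)| ≤ 1 / N := fun i => by
    rw [← sub_div, abs_div, abs_of_pos N1]
    gcongr
    simpa using abs_abs_sub_abs_le (i - n * N / 2 : ℝ) ((i + 1 : ℕ) - n * N / 2)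
  have hd : ∀ u, ∀ i < n * N, dist (p u i) (p u (i + 1)) ≤ δ := fun u i hi => by
    rw [he u i hi]
    refine (h6 _ ⟨trivial, (hm i).1⟩ _ ⟨trivial, (hm i).2⟩ (lt_of_le_of_lt (max_le ?_ ?_) hN)).le
    · rw [Real.dist_eq, sub_sub_sub_cancel_left, abs_sub_comm]
      exact ha i
    · simp [add_div]
  refine ⟨range p, range_subset_iff.2 fun u => ⟨hp u, per_ind (Nat.mul_pos hn N0)
    (fun i hi => (Pol.edge (hp u) i).trans_le hi) (hd u)⟩, isPreconnected_range
      (continuous_pi fun i => (continuous_const_smul _).comp (h1.continuousOn.comp_continuous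
        (by fun_prop) fun u => ⟨trivial, (hm i).1⟩)), ?_, ⟨_, ⟨0, rfl⟩, fun i => ?_⟩,
    _, ⟨n + 1, rfl⟩, fun i => ?_⟩
  · rintro _ ⟨u, rfl⟩
    let I : ℝ → Finset ℕ := fun x => Finset.Ico ⌈x⌉₊ (⌈x⌉₊ + (N + 2))
    have h7 : ∀ (x : ℝ) (i : ℕ), x ≤ i → i < x + (N + 2) → i ∈ I x := fun x i a b =>
      Finset.mem_Ico.2 ⟨Nat.ceil_le.2 a, Nat.cast_lt (α := ℝ).1 (by
        push_cast
        linarith [Nat.le_ceil x])⟩
    have h8 : ∀ x, ∑ i ∈ Finset.range (n * N), (if i ∈ I x then δ ^ 2 else 0) ≤ (N + 2) * δ ^ 2 :=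
      fun x => by
        rw [Finset.sum_ite_mem, Finset.sum_const, nsmul_eq_mul]
        gcongr
        exact_mod_cast (Finset.card_le_card Finset.inter_subset_right).trans (by simp [I])
    refine (Finset.sum_le_sum (g := fun i => (L / N) ^ 2 +
      ((if i ∈ I (n * N / 2 + N * (u - 1) - 1) then δ ^ 2 else 0) +
        if i ∈ I (n * N / 2 - N * u - 1) then δ ^ 2 else 0)) fun i hi => ?_).trans ?_
    · have h9 := abs_le.1 (ha i)
      have h10 : ∀ τ : ℝ → X, Lip τ → dist (τ (L * ((i % N : ℕ) / N)))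
          (τ (L * (((i % N : ℕ) + 1) / N))) ^ 2 ≤ (L / N) ^ 2 := fun τ hτ => by
        refine (pow_le_pow_left₀ dist_nonneg (hτ _ _) 2).trans_eq ?_
        rw [sq_abs]
        ring
      by_cases e0 : u - a i ≤ -(1 / N)
      · rw [he u i (Finset.mem_range.1 hi), h3 _ (by linarith [one_div_pos.2 N1]) _ (hm i).1,
          h3 _ (by linarith) _ (hm i).2]
        exact (h10 σ h.lip).trans (le_add_of_nonneg_right (by positivity))
      by_cases e1 : 1 + 1 / N ≤ u - a i
      · rw [he u i (Finset.mem_range.1 hi), h4 _ (by linarith [one_div_pos.2 N1]) _ (hm i).1,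
          h4 _ (by linarith) _ (hm i).2]
        exact (h10 σ' h'.lip).trans (le_add_of_nonneg_right (by positivity))
      refine (pow_le_pow_left₀ dist_nonneg (hd u i (Finset.mem_range.1 hi)) 2).trans
        (le_add_of_nonneg_of_le (by positivity) ?_)
      have e2 : N * a i = |(i : ℝ) - n * N / 2| := mul_div_cancel₀ _ N1.ne'
      have e3 := mul_lt_mul_of_pos_left (not_le.1 e0) N1
      have e4 := mul_lt_mul_of_pos_left (not_le.1 e1) N1
      rw [mul_sub, e2] at e3 e4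
      rw [mul_neg, mul_one_div_cancel N1.ne'] at e3
      rw [mul_add, mul_one_div_cancel N1.ne'] at e4
      rcases abs_cases ((i : ℝ) - n * N / 2) with ⟨e5, -⟩ | ⟨e5, -⟩
      · rw [if_pos (h7 _ _ (by linarith) (by linarith))]
        exact le_add_of_nonneg_right (by positivity)
      · rw [if_pos (h7 (n * N / 2 - N * u - 1) _ (by linarith) (by linarith))]
        exact le_add_of_nonneg_left (by positivity)
    · rw [Finset.sum_add_distrib, Finset.sum_add_distrib, Finset.sum_const, Finset.card_range,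
        nsmul_eq_mul]
      push_cast
      linarith [h8 (n * N / 2 + N * (u - 1) - 1), h8 (n * N / 2 - N * u - 1)]
  · exact ⟨_, (h.per.pow _ _).trans (congrArg _ (h3 _ (sub_nonpos.2 (by positivity)) _ (hm i).1).symm)⟩
  · refine ⟨_, (h'.per.pow _ _).trans (congrArg _ (h4 _ ?_ _ (hm i).1).symm)⟩
    have : ((i % (n * N) : ℕ) : ℝ) ≤ n * N := by
      exact_mod_cast (Nat.mod_lt i (Nat.mul_pos hn N0)).le
    have : a (i % (n * N)) ≤ n := (div_le_iff₀ N1).2 (abs_le.2 ⟨by
      linarith [(i % (n * N)).cast_nonneg (α := ℝ)], by linarith [(i % (n * N)).cast_nonneg (α := ℝ)]⟩)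
    linarith

namespace Nice

variable {ι : Type} [Finite ι] {c : ι → ℝ → X} {a : ι → G} {l : ι → ℝ} {ρ : ℝ}
  (h : Nice G X c a l ρ) [ProperSpace X]

/-- a midpoint -/
noncomputable def md (x y : X) : X := (h.seg.midpoint x y).choose

theorem md_left (x y : X) : dist x (h.md x y) = dist x y / 2 := (h.seg.midpoint x y).choose_spec.1

theorem md_right (x y : X) : dist (h.md x y) y = dist x y / 2 := (h.seg.midpoint x y).choose_spec.2

theorem md_eq {x y m : X} (e : dist x y < ρ) (h1 : dist x m = dist x y / 2)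
    (h2 : dist m y = dist x y / 2) : h.md x y = m :=
  h.mid x y _ _ e (h.md_left x y) (h.md_right x y) h1 h2

theorem md_smul (g : G) {x y : X} (e : dist x y < ρ) : h.md (g • x) (g • y) = g • h.md x y :=
  h.md_eq (by rwa [dist_smul]) (by simp only [dist_smul, h.md_left])
    (by simp only [dist_smul, h.md_right])

theorem md_cont {x y : X} (e : dist x y < ρ) :
    ContinuousAt (fun q : X × X => h.md q.1 q.2) (x, y) := by
  refine (isCompact_closedBall x (1 + ρ)).tendsto_nhds_of_unique_mapClusterPt ?_ fun m _ hm => ?_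
  · filter_upwards [(continuous_fst.tendsto (x, y)).eventually (ball_mem_nhds x one_pos),
      (continuous_dist.tendsto (x, y)).eventually (gt_mem_nhds e)] with q h1 h2
    have := dist_triangle_left (h.md q.1 q.2) x q.1
    rw [h.md_left] at this
    exact this.trans (add_le_add (by linarith [h.pos]) (le_of_lt h1)) |>.trans_eq (add_comm _ _)
  · obtain ⟨U, h1, h2⟩ := mapClusterPt_iff_ultrafilter.1 hm
    have h3 := (continuous_fst.tendsto (x, y)).mono_left h1
    have h4 := (continuous_snd.tendsto (x, y)).mono_left h1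
    exact (h.md_eq e (tendsto_nhds_unique (h3.dist h2) (((h3.dist h4).div_const 2).congr
      fun q => (h.md_left _ _).symm)) (tendsto_nhds_unique (h2.dist h4)
        (((h3.dist h4).div_const 2).congr fun q => (h.md_right _ _).symm))).symm

/-- the curve shortening map -/
noncomputable def B (p : ℕ → X) (i : ℕ) : X := h.md (p i) (p (i + 1))

theorem B_le (p : ℕ → X) (i : ℕ) : dist (h.B p i) (h.B p (i + 1)) ≤
    (dist (p i) (p (i + 1)) + dist (p (i + 1)) (p (i + 1 + 1))) / 2 := by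
  have := dist_triangle (h.B p i) (p (i + 1)) (h.B p (i + 1))
  simp only [B, h.md_left, h.md_right] at this ⊢
  linarith

variable {w : G} {K : ℕ} {δ : ℝ} {p : ℕ → X}

theorem B_maps (hδ : δ < ρ) : MapsTo h.B (Pol X w K δ) (Pol X w K δ) := fun p hp =>
  ⟨fun i => by rw [B, add_right_comm, hp.1, hp.1, h.md_smul _ ((hp.2 i).trans_lt hδ), B],
    fun i => (h.B_le p i).trans (by linarith [hp.2 i, hp.2 (i + 1)])⟩

theorem B_cont (hδ : δ < ρ) : ContinuousOn h.B (Pol X w K δ) := fun p hp =>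
  (continuousAt_pi.2 fun i => ContinuousAt.comp (f := fun p : ℕ → X => (p i, p (i + 1)))
    (h.md_cont ((hp.2 i).trans_lt hδ)) (by fun_prop)).continuousWithinAt

theorem En_sub (hp : ∀ i, p (i + K) = w • p i) : En K p - En K (h.B p) =
    ∑ i ∈ Finset.range K, (((dist (p i) (p (i + 1)) - dist (p (i + 1)) (p (i + 1 + 1))) / 2) ^ 2 +
      (((dist (p i) (p (i + 1)) + dist (p (i + 1)) (p (i + 1 + 1))) / 2) ^ 2 -
        dist (h.B p i) (h.B p (i + 1)) ^ 2)) := by
  have h1 := Finset.sum_range_succ_sub_sum (n := K) fun i => dist (p i) (p (i + 1)) ^ 2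
  have h2 := Finset.sum_range_succ' (fun i => dist (p i) (p (i + 1)) ^ 2) K
  have h3 := Pol.edge hp 0
  rw [zero_add] at h3
  have h4 : En K p = ∑ i ∈ Finset.range K,
      (dist (p i) (p (i + 1)) ^ 2 + dist (p (i + 1)) (p (i + 1 + 1)) ^ 2) / 2 := by
    rw [← Finset.sum_div, Finset.sum_add_distrib, En]
    rw [h3] at h1
    linarith
  rw [h4, En, ← Finset.sum_sub_distrib]
  exact Finset.sum_congr rfl fun i _ => by ring

theorem En_le (hp : ∀ i, p (i + K) = w • p i) : En K (h.B p) ≤ En K p :=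
  sub_nonneg.1 (h.En_sub hp ▸ Finset.sum_nonneg fun i _ => add_nonneg (sq_nonneg _)
    (sub_nonneg.2 (pow_le_pow_left₀ dist_nonneg (h.B_le p i) 2)))

theorem crit (hK : 0 < K) (hδ : δ < ρ) (hp : p ∈ Pol X w K δ) (e : En K p ≤ En K (h.B p))
    (h0 : 0 < En K p) : ∃ (σ : ℝ → X) (L : ℝ), Ax σ w L ∧ L ^ 2 = K * En K p := by
  have h1 := (Finset.sum_eq_zero_iff_of_nonneg fun i _ => add_nonneg (sq_nonneg _)
    (sub_nonneg.2 (pow_le_pow_left₀ dist_nonneg (h.B_le p i) 2))).1
      ((h.En_sub hp.1).symm.trans (sub_eq_zero.2 (e.antisymm (h.En_le hp.1))))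
  have h2 : ∀ i, dist (p (i + 1)) (p (i + 1 + 1)) = dist (p i) (p (i + 1)) ∧
      dist (h.B p i) (h.B p (i + 1)) = dist (p i) (p (i + 1)) := per_ind hK (fun i hi => by
    rw [Pol.edge (h.B_maps hδ hp).1, Pol.edge hp.1, add_right_comm, Pol.edge hp.1]
    exact hi) fun i hi => by
      obtain ⟨a, b⟩ := (add_eq_zero_iff_of_nonneg (sq_nonneg _) (sub_nonneg.2 (pow_le_pow_left₀
        dist_nonneg (h.B_le p i) 2))).1 (h1 i (Finset.mem_range.2 hi))
      have a' := pow_eq_zero_iff two_ne_zero |>.1 a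
      have := (sq_eq_sq₀ (by positivity) dist_nonneg).1 (sub_eq_zero.1 b)
      constructor <;> linarith
  obtain ⟨d, h3⟩ : ∃ d, ∀ i, dist (p i) (p (i + 1)) = d :=
    ⟨_, fun i => i.rec rfl fun i hi => (h2 i).1.trans hi⟩
  have h4 : En K p = K * d ^ 2 := by simp [En, h3]
  have hd : 0 < d := (h3 0 ▸ dist_nonneg : 0 ≤ d).lt_of_ne (by rintro rfl; simp [h4] at h0)
  have hT : 0 < K * d := by positivity
  obtain ⟨γ, h5, h6⟩ := exists_poly h.seg hd K fun i _ => h3 i
  obtain ⟨σ, h7, h8, h9⟩ := h5.extend hT (w := w) (by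
    rw [h6 K le_rfl, ← zero_add K, hp.1, ← h6 0 K.zero_le, Nat.cast_zero, zero_mul])
  have h10 : ∀ i : ℕ, σ (i * d) = p i := per_ind hK (fun i hi => by
    rw [Nat.cast_add, add_mul, h8, hi, hp.1]) fun i hi => by
      rw [h9 _ ⟨by positivity, by gcongr⟩, h6 i hi.le]
  have h11 : ∀ i : ℕ, ∀ s ∈ Icc (i * d) (i * d + d), ∀ t ∈ Icc (i * d) (i * d + d),
      dist (σ s) (σ t) = |s - t| := fun i s hs t ht => h7.iso (by
    rw [← add_one_mul, ← Nat.cast_succ, h10, h10, h3]
    push_cast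
    linarith) hs ht
  have h12 : ∀ i : ℕ, h.B p i = σ (i * d + d / 2) := fun i => by
    refine h.md_eq ((hp.2 i).trans_lt hδ) ?_ ?_
    · rw [h3, ← h10, h11 i _ ⟨le_rfl, by linarith⟩ _ ⟨by linarith, by linarith⟩, abs_sub_comm,
        add_sub_cancel_left, abs_of_pos (half_pos hd)]
    · rw [h3, ← h10, Nat.cast_succ, add_one_mul, h11 i _ ⟨by linarith, by linarith⟩ _
        ⟨by linarith, le_rfl⟩, abs_sub_comm, abs_of_pos (by linarith)]
      ring
  have h13 : ∀ t, d ≤ t → ∃ a, a + d / 4 ≤ t ∧ t ≤ a + 3 * d / 4 ∧ d ≤ dist (σ a) (σ (a + d)) := by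
    intro t ht
    obtain ⟨i, a, b⟩ : ∃ i : ℕ, i * d + d / 4 ≤ t ∧ t ≤ i * d + d + d / 4 := by
      have := Nat.floor_le (a := t / d - 1 / 4) (by linarith [(one_le_div hd).2 ht])
      have := Nat.lt_floor_add_one (t / d - 1 / 4)
      have := mul_div_cancel₀ t hd.ne'
      exact ⟨⌊t / d - 1 / 4⌋₊, by nlinarith, by nlinarith⟩
    rcases le_total t (i * d + 3 * d / 4) with e | e
    · exact ⟨_, a, e, by rw [← add_one_mul, ← Nat.cast_succ, h10, h10, h3]⟩
    · refine ⟨i * d + d / 2, by linarith, by linarith, ?_⟩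
      rw [add_right_comm, ← add_one_mul, ← Nat.cast_succ, ← h12, ← h12, (h2 i).2, h3]
  refine ⟨σ, K * d, ⟨fun t => ?_, hT, h8⟩, by rw [h4]; ring⟩
  obtain ⟨m, hm⟩ := exists_nat_ge ((d - t) / (K * d))
  obtain ⟨a, a1, a2, a3⟩ := h13 (t + m * (K * d)) (by linarith [(div_le_iff₀ hT).1 hm])
  refine ⟨d / 4, by positivity, fun s s' b c => ?_⟩
  rw [abs_lt] at b c
  rw [← dist_smul (w ^ m), ← h8.pow, ← h8.pow, h7.iso (a := a) (b := a + d) (by simpa using a3)
    ⟨by linarith, by linarith⟩ ⟨by linarith, by linarith⟩]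
  simp

theorem descend (hδ : δ < ρ) {u v : ℝ}
    (hc : ∀ p ∈ Pol X w K δ, u ≤ En K p → En K p ≤ v → En K (h.B p) < En K p) :
    ∃ n, ∀ p ∈ Pol X w K δ, En K p ≤ v → En K (h.B^[n] p) < u := by
  obtain ⟨C, h1, h2⟩ := h.cocomm w (K * δ)
  have h3 : ∀ p ∈ Pol X w K δ, ∀ i : ℕ, dist (p 0) (p i) ≤ i * δ := fun p hp i =>
    (dist_le_range_sum_of_dist_le i fun {k} _ => hp.2 k).trans (by simp)
  have h4 : IsCompact {p ∈ Pol X w K δ | p 0 ∈ C ∧ u ≤ En K p ∧ En K p ≤ v} :=
    (isCompact_univ_pi fun i : ℕ => h1.cthickening (r := i * δ)).of_isClosed_subset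
      ((((ofPred_forall _).symm ▸ isClosed_iInter fun i => isClosed_eq (by fun_prop) (by fun_prop) :
        IsClosed {p : ℕ → X | ∀ i, p (i + K) = w • p i}).inter ((ofPred_forall _).symm ▸
        isClosed_iInter fun i => isClosed_le (by fun_prop) continuous_const :
        IsClosed {p : ℕ → X | ∀ i, dist (p i) (p (i + 1)) ≤ δ})).inter
        ((h1.isClosed.preimage (continuous_apply 0)).inter
          ((isClosed_le continuous_const (continuous_En K)).inter
            (isClosed_le (continuous_En K) continuous_const))))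
      fun p hp i _ => mem_cthickening_of_dist_le _ _ _ _ hp.2.1 (dist_comm (p 0) _ ▸ h3 p hp.1 i)
  obtain ⟨κ, h5, h6⟩ := h4.exists_forall_le' (f := fun p => En K p - En K (h.B p)) (a := 0)
    ((continuous_En K).continuousOn.sub ((continuous_En K).comp_continuousOn
      ((h.B_cont hδ).mono fun p hp => hp.1))) fun p hp => sub_pos.2 (hc p hp.1 hp.2.2.1 hp.2.2.2)
  have h7 : ∀ p ∈ Pol X w K δ, u ≤ En K p → En K p ≤ v → En K (h.B p) ≤ En K p - κ := by
    intro p hp a b
    obtain ⟨k, c, d⟩ := h2 (p 0) (by rw [← hp.1, zero_add]; exact h3 p hp K)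
    have e : ∀ q : ℕ → X, En K (k • q) = En K q := fun q => by simp [En]
    have := h6 (k • p) ⟨⟨fun i => by simp only [Pi.smul_apply, hp.1, ← mul_smul, c.eq],
      fun i => (dist_smul k _ _).trans_le (hp.2 i)⟩, d, (e p).symm ▸ ⟨a, b⟩⟩
    rw [show h.B (k • p) = k • h.B p from funext fun i => h.md_smul k ((hp.2 i).trans_lt hδ), e,
      e] at this
    linarith
  obtain ⟨n, hn⟩ := exists_nat_gt ((v - u) / κ)
  refine ⟨n, fun p hp hv => ?_⟩
  have h8 : ∀ m : ℕ, En K (h.B^[m] p) < u ∨ En K (h.B^[m] p) ≤ v - m * κ := fun m => by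
    induction m with
    | zero => exact Or.inr (by simpa using hv)
    | succ m ih =>
      have a := (h.B_maps hδ).iterate m hp
      rw [Function.iterate_succ_apply']
      rcases lt_or_ge (En K (h.B^[m] p)) u with e | e
      · exact Or.inl ((h.En_le a.1).trans_lt e)
      · have b := ih.resolve_left e.not_gt
        have := h7 _ a e (b.trans (sub_le_self _ (by positivity)))
        push_cast
        exact Or.inr (by linarith)
  exact (h8 n).elim id fun e => by linarith [(div_lt_iff₀ h5).1 hn]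

theorem B_line {σ : ℝ → X} (hσ : Isometry σ) (hδ : δ < ρ) (n : ℕ) (hp : p ∈ Pol X w K δ)
    (e : ∀ i, p i ∈ range σ) (i : ℕ) : h.B^[n] p i ∈ range σ := by
  induction n generalizing i with
  | zero => exact e i
  | succ n ih =>
    have a := ((h.B_maps hδ).iterate n hp).2 i
    obtain ⟨s, hs⟩ := ih i
    obtain ⟨t, ht⟩ := ih (i + 1)
    rw [Function.iterate_succ_apply', B]
    rw [← hs, ← ht] at a ⊢
    refine ⟨(s + t) / 2, (h.md_eq (a.trans_lt hδ) ?_ ?_).symm⟩ <;>
    rw [hσ.dist_eq, hσ.dist_eq, Real.dist_eq, Real.dist_eq] <;>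
    exact (congrArg abs (by ring)).trans ((abs_div (s - t) 2).trans (by rw [abs_two]))

include h

omit h in
theorem _root_.Vale.Agent.P216MG.avoid (tf : ∀ (x : G) (n : ℕ), n ≠ 0 → x ^ n = 1 → x = 1)
    (bs : ∀ (z t : G) (s : ℕ), s ≠ 0 → t * z * t⁻¹ = z ^ (3 ^ s) → z = 1) {x : G} (hx : x ≠ 1)
    {F : Set G} (hF : F.Finite) : ∃ s : ℕ, ¬ ∃ b ∈ F, IsConj (x ^ 3 ^ s) b := by
  by_contra! hc
  choose b h1 h2 using hc
  obtain ⟨s, t, h3, h4⟩ := hF.exists_lt_map_eq_of_forall_mem h1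
  obtain ⟨u, hu⟩ := isConj_iff.1 ((h2 s).trans (h4 ▸ (h2 t).symm))
  obtain ⟨r, rfl⟩ := Nat.exists_eq_add_of_lt h3
  exact hx (tf x (3 ^ s) (by positivity) (bs _ u (r + 1) r.succ_ne_zero
    (by rw [hu, ← pow_mul, ← pow_add, add_assoc])))

/-- straight elements have a unique axis -/
theorem uniq [SimplyConnectedSpace X] (tf : ∀ (x : G) (n : ℕ), n ≠ 0 → x ^ n = 1 → x = 1)
    (bs : ∀ (z t : G) (s : ℕ), s ≠ 0 → t * z * t⁻¹ = z ^ (3 ^ s) → z = 1) {z : G} (hz : z ≠ 1)
    {σ σ' : ℝ → X} {L : ℝ} (hs : Str X z L) (h1 : Ax σ z L) (h2 : Ax σ' z L) :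
    range σ = range σ' := by
  have hδ := half_lt_self h.pos
  have hL := h1.pos
  obtain ⟨N, C, hN, H⟩ := exists_family h1 h2 (half_pos h.pos)
  obtain ⟨F, h3, h4⟩ := h.cls (N * |C| / L)
  obtain ⟨s, h5⟩ := avoid tf bs hz h3
  have hn : 0 < 3 ^ s := by positivity
  generalize 3 ^ s = n at hn h5
  obtain ⟨S, h6, h7, h8, ⟨p, p1, p2⟩, q, q1, q2⟩ := H n hn
  have h9 : Str X (z ^ n) (n * L) := by simpa using hs.conj 1 n
  have h10 : ∀ {τ : ℝ → X}, Ax τ z L → Ax τ (z ^ n) (n * L) := fun a =>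
    ⟨a.geo, by positivity, a.per.pow n⟩
  obtain ⟨ε, h11, h12⟩ := h.conn h9 (by positivity)
  have hK : (0 : ℝ) < (n * N : ℕ) := by positivity
  obtain ⟨m, h13⟩ := h.descend hδ (w := z ^ n) (K := n * N) (u := (n * L + ε) ^ 2 / (n * N : ℕ))
    (v := n * N * (L / N) ^ 2 + C) fun p hp a b => not_le.1 fun e => by
      obtain ⟨τ, L', a1, a2⟩ := h.crit (by positivity) hδ hp e (lt_of_lt_of_le (by positivity) a)
      rw [div_le_iff₀' hK, ← a2] at a
      have a3 : L' ≤ n * L + N * |C| / L := by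
        refine abs_le_of_sq_le_sq' (a2.trans_le ((mul_le_mul_of_nonneg_left b hK.le).trans ?_))
          (by positivity) |>.2
        have b1 : (n * N : ℕ) * (n * N * (L / N) ^ 2 + C) = (n * L) ^ 2 + n * N * C := by
          push_cast
          field_simp
        have b2 : n * L * (N * |C| / L) = n * N * |C| := by field_simp
        have b3 := mul_le_mul_of_nonneg_left (le_abs_self C) (by positivity : (0 : ℝ) ≤ n * N)
        have b4 : (0 : ℝ) ≤ n * N * |C| := by positivity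
        rw [b1, add_sq, mul_assoc 2, b2]
        linarith [sq_nonneg (N * |C| / L)]
      have a4 := (h4 τ _ L' a1 fun y => a3.trans (by simpa using h9 1 y)).resolve_right h5 1 (σ 0)
      rw [pow_one, ← (h10 h1).per] at a4
      have a5 := h1.lip.le (s := 0) (t := 0 + n * L) (by positivity)
      have a6 := (abs_le_of_sq_le_sq' a a1.pos.le).2
      push_cast at a4
      linarith
  obtain ⟨t, ht⟩ := h.B_line (h1.lip.isometry h1.per hL hs) hδ m (h6 p1) p2 0
  obtain ⟨t', ht'⟩ := h.B_line (h2.lip.isometry h2.per hL hs) hδ m (h6 q1) q2 0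
  refine h12 _ (h7.image (fun p => h.B^[m] p 0) ((continuous_apply 0).comp_continuousOn
    (((h.B_cont hδ).iterate (h.B_maps hδ) m).mono h6))) ?_ σ σ' t t' (h10 h1) (h10 h2)
    ⟨p, p1, ht.symm⟩ ⟨q, q1, ht'.symm⟩
  rintro _ ⟨r, r1, rfl⟩
  exact lt_of_pow_lt_pow_left₀ 2 (by positivity) ((disp_sq ((h.B_maps hδ).iterate m (h6 r1)).1).trans_lt
    ((lt_div_iff₀' hK).1 (h13 r (h6 r1) (h8 r r1))))

/-- centralisers are cyclic -/
theorem cyclic [SimplyConnectedSpace X] (tf : ∀ (x : G) (n : ℕ), n ≠ 0 → x ^ n = 1 → x = 1)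
    (bs : ∀ (z t : G) (s : ℕ), s ≠ 0 → t * z * t⁻¹ = z ^ (3 ^ s) → z = 1) (x : G) (hx : x ≠ 1) :
    ∃ z, ∀ y, Commute x y → y ∈ Subgroup.zpowers z := by
  obtain ⟨F, h1, h2⟩ := h.cls 0
  obtain ⟨s, h3⟩ := avoid tf bs hx h1
  have hz : x ^ 3 ^ s ≠ 1 := fun e => hx (tf x _ (by positivity) e)
  obtain ⟨σ, L, h4, h5⟩ := h.exists_min hz
  have h6 := (h2 σ _ L h4 (by simpa using h5)).resolve_right h3
  obtain ⟨j, k, β, e⟩ := h.all σ _ L h4
  refine ⟨k * a j * k⁻¹, fun y hy => ?_⟩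
  have h7 := h4.smul (hy.pow_left (3 ^ s))
  obtain ⟨t, ht⟩ := (h.uniq tf bs hz h6 h7 h4).le ⟨0, rfl⟩
  obtain ⟨m, -, rfl⟩ := h.stab e (g := y) fun u => (h.ax_shift h6 h7 h4 ht.symm u).symm
  exact ⟨m, conj_zpow⟩

end Nice

end Vale.Agent.P216MG
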