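import Vale.Agent.P188.H796.Gromov

/-!
Torsion free groups whose maximal abelian subgroups are malnormal.
-/

universe u

namespace Vale.Agent.P216MG

open Vale.Agent.P188 Vale.Agent.P188.H796 Filter
open scoped Pointwise

/-- torsion free, commutative transitive, maximal abelian subgroups malnormal -/
structure CSA (G : Type u) [Group G] : Prop where
  tf : ∀ (x : G) (n : ℕ), n ≠ 0 → x ^ n = 1 → x = 1
  ct : ∀ x y z : G, x ≠ 1 → Commute x y → Commute x z → Commute y z
  mal : ∀ x g : G, x ≠ 1 → Commute x (g * x * g⁻¹) → Commute x g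

variable {G : Type u} [Group G]

theorem csa_of_cyclic (tf : ∀ (x : G) (n : ℕ), n ≠ 0 → x ^ n = 1 → x = 1)
    (hc : ∀ x : G, x ≠ 1 → ∃ z : G, ∀ y, Commute x y → y ∈ Subgroup.zpowers z) : CSA G := by
  have tz : ∀ (x : G) (n : ℤ), n ≠ 0 → x ^ n = 1 → x = 1 := fun x n hn h =>
    tf x n.natAbs (Int.natAbs_ne_zero.2 hn) (by
      rcases Int.natAbs_eq n with e | e
      · rw [← zpow_natCast, ← e, h]
      · rw [e, zpow_neg, inv_eq_one, zpow_natCast] at h
        exact h)
  have ct : ∀ x y z : G, x ≠ 1 → Commute x y → Commute x z → Commute y z := fun x y z hx h1 h2 => by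
    obtain ⟨w, hw⟩ := hc x hx
    obtain ⟨a, rfl⟩ := hw y h1
    obtain ⟨b, rfl⟩ := hw z h2
    exact Commute.zpow_zpow_self w a b
  refine ⟨tf, ct, fun x g hx h => ?_⟩
  have cj : ∀ (g : G) {a b : G}, Commute a b → Commute (g * a * g⁻¹) (g * b * g⁻¹) :=
    fun g a b h => h.map (MulAut.conj g)
  have hx' : g * x * g⁻¹ ≠ 1 := fun e => hx (by simpa [mul_assoc] using congrArg (MulAut.conj g⁻¹) e)
  have h' : Commute x (g⁻¹ * x * g⁻¹⁻¹) := by simpa [mul_assoc] using (cj g⁻¹ h).symm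
  have hx'' : g⁻¹ * x * g⁻¹⁻¹ ≠ 1 := fun e => hx (by simpa [mul_assoc] using congrArg (MulAut.conj g) e)
  obtain ⟨z, hz⟩ := hc x hx
  obtain ⟨n, hn⟩ := hz x (Commute.refl x)
  have hxz : Commute x z := hn ▸ (Commute.zpow_self z n)
  obtain ⟨a, ha⟩ := hz _ (ct _ _ _ hx' h.symm (cj g hxz))
  obtain ⟨b, hb⟩ := hz _ (ct _ _ _ hx'' h'.symm (cj g⁻¹ hxz))
  simp only at ha hb hn
  have h1 : z ^ (a * b) = z := by
    rw [zpow_mul, ha, _root_.conj_zpow, hb]
    group
  have hz1 : z ≠ 1 := fun e => hx (by rw [← hn, e, one_zpow])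
  have h2 : a * b = 1 := by
    by_contra h2
    exact hz1 (tz z (a * b - 1) (sub_ne_zero.2 h2) (by rw [zpow_sub, h1, zpow_one, mul_inv_cancel]))
  rcases Int.eq_one_or_neg_one_of_mul_eq_one h2 with rfl | rfl
  · rw [zpow_one, eq_mul_inv_iff_mul_eq] at ha
    exact hn ▸ (Commute.zpow_left ha n)
  · have h3 : g * x * g⁻¹ = x⁻¹ := by rw [← hn, ← _root_.conj_zpow, ← ha, ← zpow_mul, ← zpow_neg, neg_one_mul]
    have h4 : Commute x (g ^ 2) := by
      have : g * x⁻¹ * g⁻¹ = x := by rw [← conj_inv, h3, inv_inv]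
      change x * g ^ 2 = g ^ 2 * x
      calc x * g ^ 2 = g * (g * x * g⁻¹) * g⁻¹ * g ^ 2 := by rw [h3, this]
        _ = g ^ 2 * x := by rw [pow_two]; group
    obtain ⟨m, hm⟩ := hz _ h4
    simp only at hm
    have h5 : z ^ (-m) = z ^ m := by
      calc z ^ (-m) = g * z ^ m * g⁻¹ := by rw [← _root_.conj_zpow, ← ha, ← zpow_mul, neg_one_mul]
        _ = z ^ m := by rw [hm, pow_two]; group
    have h6 : m = 0 := by
      by_contra h6
      exact hz1 (tz z (m - -m) (by omega) (by rw [zpow_sub, h5, mul_inv_cancel]))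
    rw [tf g 2 two_ne_zero (by rw [← hm, h6, zpow_zero])]
    exact Commute.one_right x

theorem CSA.of_injective {K : Type*} [Group K] (h : CSA G) (f : K →* G)
    (hf : Function.Injective f) : CSA K := by
  have e : ∀ {a b : K}, Commute (f a) (f b) → Commute a b := fun h =>
    hf (by rw [map_mul, map_mul]; exact h)
  have n : ∀ {a : K}, a ≠ 1 → f a ≠ 1 := fun h1 h2 => h1 (hf (h2.trans (map_one f).symm))
  refine ⟨fun x m hm hx => hf ?_, fun x y z hx h1 h2 => e (h.ct _ _ _ (n hx) (h1.map f) (h2.map f)),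
    fun x g hx h1 => e (h.mal _ _ (n hx) (by simpa using h1.map f))⟩
  rw [map_one]
  exact h.tf _ m hm (by rw [← map_pow, hx, map_one])

theorem CSA.subgroup (h : CSA G) (K : Subgroup G) : CSA K :=
  h.of_injective K.subtype K.subtype_injective

/-- a subgroup with a nontrivial abelian normal subgroup is abelian -/
theorem CSA.comm_of_normal (h : CSA G) {x : G} (hx : x ≠ 1) {a b : G}
    (ha : Commute x (a * x * a⁻¹)) (hb : Commute x (b * x * b⁻¹)) : Commute a b :=
  h.ct x a b hx (h.mal x a hx ha) (h.mal x b hx hb)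

theorem CSA.pcs (h : CSA G) {M : Subgroup G} (hM : PCS M) : ∀ a ∈ M, ∀ b ∈ M, Commute a b := by
  induction hM with
  | bot =>
    intro a ha b _
    rw [Subgroup.mem_bot.1 ha]
    exact Commute.one_left b
  | @step N M t _ hs ih =>
    intro a ha b hb
    by_cases hN : ∃ x ∈ N, x ≠ 1
    · obtain ⟨x, hx, h1⟩ := hN
      exact h.comm_of_normal h1 (ih _ hx _ (hs.normal ha hx)) (ih _ hx _ (hs.normal hb hx))
    · push Not at hN
      obtain ⟨i, hi⟩ := hs.dec a ha
      obtain ⟨j, hj⟩ := hs.dec b hb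
      rw [← inv_mul_eq_one.1 (hN _ hi), ← inv_mul_eq_one.1 (hN _ hj)]
      exact Commute.zpow_zpow_self t i j

theorem CSA.root (h : CSA G) {x g : G} {n : ℕ} (hn : n ≠ 0) (hx : Commute (g ^ n) x) :
    Commute g x := by
  by_cases hg : g = 1
  · rw [hg]
    exact Commute.one_left x
  · exact h.ct _ _ _ (fun e => hg (h.tf g n hn e)) (Commute.pow_self g n) hx

theorem CSA.comm_of_finiteIndex (h : CSA G) {Q : Subgroup G} (hi : Q.index ≠ 0)
    (hQ : ∀ a ∈ Q, ∀ b ∈ Q, Commute a b) (a b : G) : Commute a b := by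
  obtain ⟨n, hn, -, h1⟩ := Subgroup.exists_pow_mem_of_index_ne_zero hi a
  obtain ⟨m, hm, -, h2⟩ := Subgroup.exists_pow_mem_of_index_ne_zero hi b
  exact h.root hn.ne' (h.root hm.ne' (hQ _ h2 _ h1)).symm

theorem CSA.comm_of_growth (h : CSA G) {D : ℕ} (hG : GrowthLE G D) (a b : G) : Commute a b := by
  classical
  let L := Subgroup.closure (↑({a, b} : Finset G) : Set G)
  obtain ⟨Q, -, hQ, hi⟩ := gromov_vps D L (hG.subgroup L)
  rw [Subgroup.relIndex_top_right] at hi
  exact ((h.subgroup L).comm_of_finiteIndex hi ((h.subgroup L).pcs hQ)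
    ⟨a, Subgroup.subset_closure (by simp)⟩ ⟨b, Subgroup.subset_closure (by simp)⟩).map L.subtype

end Vale.Agent.P216MG
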