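import Vale.Agent.P216MG.Bir
import Vale.Agent.P216T.Cov
import Mathlib.Analysis.Convex.Contractible

/-!
The length metric of a covering space.
-/

set_option linter.unusedSectionVars false

open Set Filter Metric
open scoped Topology

namespace Vale.Agent.P216MG

open Vale.Agent.P216 Vale.Agent.P216T

variable {G X M : Type} [Group G] [MetricSpace M] [MulAction G X] {P : X → M}

section Top

variable [TopologicalSpace X]

/-- lengths of curves -/
def Cv (P : X → M) (x y : X) : Set ℝ :=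
  {L | 0 ≤ L ∧ ∃ Γ : ℝ → X, Continuous Γ ∧ Lip (P ∘ Γ) ∧ Γ 0 = x ∧ Γ L = y}

variable {x y z : X} {L L' : ℝ}

theorem Cv.symm (h : L ∈ Cv P x y) : L ∈ Cv P y x := by
  obtain ⟨h0, Γ, h1, h2, rfl, rfl⟩ := h
  exact ⟨h0, fun t => Γ (L - t), by fun_prop, fun s t => by
    simpa [abs_sub_comm] using h2 (L - s) (L - t), by simp, by simp⟩

theorem Cv.trans (h : L ∈ Cv P x y) (h' : L' ∈ Cv P y z) : L + L' ∈ Cv P x z := by
  obtain ⟨h0, Γ, h1, h2, rfl, rfl⟩ := h
  obtain ⟨h3, Γ', h4, h5, h6, rfl⟩ := h'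
  refine ⟨by positivity, fun t => if t ≤ L then Γ t else Γ' (t + -L), h1.if_le (by fun_prop)
    continuous_id continuous_const fun t e => by simp [e, h6], ?_, if_pos h0, ?_⟩
  · simpa only [Function.comp_def, apply_ite P] using h2.cat (h5.shift (-L)) (by simp [h6])
  · rcases h3.eq_or_lt with rfl | e
    · simp [h6]
    · simp [e]

theorem Cv.le (h : L ∈ Cv P x y) : dist (P x) (P y) ≤ L := by
  obtain ⟨h0, Γ, -, h2, rfl, rfl⟩ := h
  simpa using h2.le h0

theorem Cv.smul (h : Quo G P) (g : G) (e : L ∈ Cv P x y) : L ∈ Cv P (g • x) (g • y) := by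
  obtain ⟨h0, Γ, h1, h2, rfl, rfl⟩ := e
  exact ⟨h0, fun t => g • Γ t, (h.cont g).comp h1, by simpa only [Function.comp_def, h.inv] using h2,
    rfl, rfl⟩

theorem lift_curve (h : Quo G P) {γ : ℝ → M} (hγ : Continuous γ) (e : P x = γ 0) :
    ∃ Γ : ℝ → X, Continuous Γ ∧ Γ 0 = x ∧ P ∘ Γ = γ :=
  let ⟨F, a, _⟩ := h.cov.existsUnique_continuousMap_lifts ⟨γ, hγ⟩ 0 x e
  ⟨F, F.continuous, a⟩

theorem cv_lift (h : Quo G P) (hM : HasSegments M) (x : X) (q : M) :
    ∃ y, P y = q ∧ dist (P x) q ∈ Cv P x y := by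
  obtain ⟨γ, h1, h2, h3⟩ := exists_lip hM (P x) q
  obtain ⟨Γ, h4, h5, rfl⟩ := lift_curve h h1.continuous h2.symm
  exact ⟨_, h3, dist_nonneg, Γ, h4, h1, h5, rfl⟩

theorem cv_loc (h : Quo G P) {V : Set X} (hV : V ∈ 𝓝 x) :
    ∃ r > 0, ∀ y, ∀ L ∈ Cv P x y, L < r → y ∈ V := by
  obtain ⟨e, h1, rfl⟩ := h.loc x
  obtain ⟨r, h2, h3⟩ := Metric.mem_nhds_iff.1 (inter_mem (e.open_target.mem_nhds (e.map_source h1))
    (e.tendsto_symm h1 hV))
  refine ⟨r, h2, ?_⟩
  rintro _ L ⟨h0, Γ, h4, h5, rfl, rfl⟩ hL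
  have h6 : ∀ t ∈ Icc 0 L, e (Γ t) ∈ e.target ∩ e.symm ⁻¹' V := fun t ht =>
    h3 (mem_ball'.2 ((h5.le ht.1).trans_lt (by linarith [ht.2])))
  rw [h.cov.eqOn_of_comp_eqOn isPreconnected_Icc h4.continuousOn (e.continuousOn_symm.comp
    h5.continuous.continuousOn fun t ht => (h6 t ht).1) (fun t ht => (e.right_inv (h6 t ht).1).symm)
    ⟨le_rfl, h0⟩ (e.left_inv h1).symm ⟨h0, le_rfl⟩]
  exact (h6 L ⟨h0, le_rfl⟩).2

theorem cv_near (h : Quo G P) (hM : HasSegments M) (x : X) :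
    ∀ᶠ y in 𝓝 x, dist (P x) (P y) ∈ Cv P x y := by
  obtain ⟨U, h1, h2, h3, -⟩ := h.exists_nbhd x
  obtain ⟨r, h4, h5⟩ := cv_loc h (h1.mem_nhds h2)
  filter_upwards [h1.mem_nhds h2, h.continuous.tendsto x (ball_mem_nhds _ h4)] with y a b
  obtain ⟨z, c, d⟩ := cv_lift h hM x (P y)
  exact h3 (h5 z _ d (mem_ball'.1 b)) a c ▸ d

theorem cv_bdd : BddBelow (Cv P x y) := ⟨0, fun _ h => h.1⟩

variable [PreconnectedSpace X]

theorem cv_ne (h : Quo G P) (hM : HasSegments M) (x y : X) : (Cv P x y).Nonempty :=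
  PreconnectedSpace.induction₂' (fun x y => (Cv P x y).Nonempty)
    (fun x => (cv_near h hM x).mono fun _ a => ⟨⟨_, a⟩, _, Cv.symm a⟩)
    ⟨fun _ _ _ ⟨_, a⟩ ⟨_, b⟩ => ⟨_, Cv.trans a b⟩⟩ x y

/-- the length metric -/
@[reducible] noncomputable def cmet (h : Quo G P) (hM : HasSegments M) : MetricSpace X :=
  haveI := h.t2
  MetricSpace.ofDistTopology (fun x y => sInf (Cv P x y))
    (fun x => (csInf_le cv_bdd (by simpa using (cv_near h hM x).self_of_nhds)).antisymm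
      (Real.sInf_nonneg fun _ a => a.1))
    (fun x y => congrArg sInf (Subset.antisymm (fun _ => Cv.symm) fun _ => Cv.symm))
    (fun x y z => sub_le_iff_le_add.1 (le_csInf (cv_ne h hM x y) fun _ a => sub_le_comm.1
      (le_csInf (cv_ne h hM y z) fun _ b => sub_le_iff_le_add'.2 (csInf_le cv_bdd (Cv.trans a b)))))
    (fun s => isOpen_iff_mem_nhds.trans (forall₂_congr fun x _ => ⟨fun a =>
      let ⟨r, b, c⟩ := cv_loc h a
      ⟨r, b, fun y d => let ⟨L, e, f⟩ := exists_lt_of_csInf_lt (cv_ne h hM x y) d; c y L e f⟩,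
      fun ⟨r, a, b⟩ => by
        filter_upwards [cv_near h hM x, h.continuous.tendsto x (ball_mem_nhds _ a)] with y c d
        exact b y ((csInf_le cv_bdd c).trans_lt (mem_ball'.1 d))⟩))
    fun x y e => (pure_le_nhds_iff.1 fun _ hV =>
      let ⟨_, b, c⟩ := cv_loc h hV
      let ⟨L, e, f⟩ := exists_lt_of_csInf_lt (cv_ne h hM x y) (e.trans_lt b); c y L e f).symm

end Top

variable (G) in
/-- coverings with the length metric -/
structure CovM [MetricSpace X] (P : X → M) : Prop extends Quo G P where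
  le : ∀ x y, dist (P x) (P y) ≤ dist x y
  cv : ∀ x y, ∀ L ∈ Cv P x y, dist x y ≤ L
  ex : ∀ x y r, dist x y < r → ∃ L ∈ Cv P x y, L < r

theorem covM [TopologicalSpace X] [PreconnectedSpace X] (h : Quo G P) (hM : HasSegments M) :
    letI := cmet h hM
    CovM G P ∧ IsIsometricSMul G X := by
  let _ := cmet h hM
  refine ⟨⟨h, fun x y => le_csInf (cv_ne h hM x y) fun _ => Cv.le, fun x y L => csInf_le cv_bdd,
    fun x y r => exists_lt_of_csInf_lt (cv_ne h hM x y)⟩, ⟨fun g => Isometry.of_dist_eq fun x y =>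
      congrArg sInf (Subset.antisymm (fun _ a => by simpa using Cv.smul h g⁻¹ a)
        fun _ => Cv.smul h g)⟩⟩

namespace CovM

variable [MetricSpace X] [IsIsometricSMul G X] [CompactSpace M] [LocallyCompactSpace X]
  (h : CovM G P)
include h

theorem lip {Γ : ℝ → X} (h1 : Continuous Γ) (h2 : Lip (P ∘ Γ)) : Lip Γ := fun s t => by
  wlog e : s ≤ t generalizing s t
  · rw [dist_comm, abs_sub_comm]; exact this t s (le_of_not_ge e)
  rw [abs_sub_comm, abs_of_nonneg (sub_nonneg.2 e)]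
  exact h.cv _ _ _ ⟨sub_nonneg.2 e, fun u => Γ (u + s), by fun_prop, h2.shift s, by simp, by simp⟩

theorem approx {x y : X} {r : ℝ} (e : dist x y < r) :
    ∃ (Γ : ℝ → X) (L : ℝ), Lip Γ ∧ 0 ≤ L ∧ L < r ∧ Γ 0 = x ∧ Γ L = y :=
  let ⟨L, ⟨a, Γ, b, c, d⟩, f⟩ := h.ex x y r e
  ⟨Γ, L, h.lip b c, a, f, d⟩

theorem proper : ProperSpace X := by
  obtain ⟨K, h1, h2⟩ := h.toQuo.exists_compact
  obtain ⟨δ, h3, h4⟩ := h1.exists_isCompact_cthickening
  have h5 : ∀ y : X, IsCompact (closedBall y δ) := fun y => by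
    obtain ⟨g, hg⟩ := h2 y
    refine (h4.image (h.cont g⁻¹)).of_isClosed_subset isClosed_closedBall fun z hz =>
      ⟨g • z, mem_cthickening_of_dist_le _ _ _ _ hg (by rwa [dist_smul]), inv_smul_smul _ _⟩
  have h6 : ∀ (x : X) (n : ℕ), IsCompact (closedBall x (n * (δ / 4))) := fun x n => by
    induction n with
    | zero => simp
    | succ n ih =>
      obtain ⟨T, -, a⟩ := ih.elim_nhds_subcover (fun z => ball z (δ / 2))
        fun z _ => ball_mem_nhds z (half_pos h3)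
      refine (T.isCompact_biUnion fun z _ => h5 z).of_isClosed_subset isClosed_closedBall
        fun y hy => ?_
      obtain ⟨Γ, L, b, c, d, rfl, rfl⟩ := h.approx (r := n * (δ / 4) + δ / 2)
        ((mem_closedBall'.1 hy).trans_lt (by push_cast; linarith))
      obtain ⟨z, e, f⟩ := mem_iUnion₂.1 (a (mem_closedBall'.2 ((b.le (le_min c (by positivity :
        0 ≤ n * (δ / 4)))).trans (by simp))))
      refine mem_iUnion₂.2 ⟨z, e, (dist_triangle_left _ _ _).trans ((add_le_add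
        (b.le (min_le_left _ _)) (le_of_lt f)).trans ?_)⟩
      rcases le_total L (n * (δ / 4)) with k | k <;> simp only [min_eq_left, min_eq_right, k] <;>
      linarith
  refine ⟨fun x r => ?_⟩
  obtain ⟨n, hn⟩ := exists_nat_ge (r / (δ / 4))
  exact (h6 x n).of_isClosed_subset isClosed_closedBall
    (closedBall_subset_closedBall ((div_le_iff₀ (by positivity)).1 hn))

theorem seg : HasSegments X := fun x y => by
  have := h.proper
  choose Γ L h1 h2 h3 h4 h5 using fun n : ℕ =>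
    h.approx (lt_add_of_pos_right (dist x y) (Nat.one_div_pos_of_nat (n := n)))
  choose γ _ h6 using fun t : ℝ => (isCompact_closedBall x |t|).ultrafilter_le_nhds'
    ((hyperfilter ℕ).map (Γ · t)) (mem_map.2 (univ_mem' fun n => by
      simpa [h4] using h1 n t 0))
  replace h6 : ∀ t, Tendsto (Γ · t) (hyperfilter ℕ) (𝓝 (γ t)) := h6
  have h7 : Lip γ := fun s t => le_of_tendsto' ((h6 s).dist (h6 t)) fun n => h1 n s t
  have h8 : γ 0 = x := tendsto_nhds_unique (h6 0) (by simp [h4])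
  have h9 : γ (dist x y) = y := tendsto_nhds_unique (h6 _) (tendsto_iff_dist_tendsto_zero.2
    (squeeze_zero (fun _ => dist_nonneg) (fun n => ?_)
      (tendsto_one_div_add_atTop_nhds_zero_nat.mono_left Nat.hyperfilter_le_atTop)))
  · exact ⟨γ, h8, h9, fun s hs t ht => h7.iso (by simp [h8, h9]) hs ht⟩
  · have a := (h1 n).le (h2 n)
    rw [h4, h5, sub_zero] at a
    have b := (h1 n).le a
    rw [h5] at b
    linarith [h3 n]

theorem inj : ∃ ρ > 0, ∀ x y : X, dist x y < ρ → P x = P y → x = y := by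
  obtain ⟨K, h1, h2⟩ := h.toQuo.exists_compact
  choose U h3 h4 h5 _ using h.toQuo.exists_nbhd
  obtain ⟨ρ, h6, h7⟩ := lebesgue_number_lemma_of_metric h1 h3 fun x _ => mem_iUnion.2 ⟨x, h4 x⟩
  refine ⟨ρ, h6, fun x y a b => ?_⟩
  obtain ⟨g, hg⟩ := h2 x
  obtain ⟨z, hz⟩ := h7 _ hg
  exact smul_left_cancel g (h5 z (hz (mem_ball_self h6)) (hz (mem_ball'.2 (by rwa [dist_smul])))
    (by rw [h.inv, h.inv, b]))

theorem iso (hM : HasSegments M) {ρ : ℝ} (hρ : ∀ x y : X, dist x y < ρ → P x = P y → x = y)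
    {x y : X} (e : dist x y < ρ / 2) : dist (P x) (P y) = dist x y := by
  obtain ⟨z, a, b⟩ := cv_lift h.toQuo hM x (P y)
  have c := h.cv _ _ _ b
  obtain rfl := hρ z y (by linarith [dist_triangle_left z y x, h.le x y]) a
  exact (h.le _ _).antisymm c

theorem geo_up {Γ : ℝ → X} (h1 : Continuous Γ) (h2 : IsGeodesicWithSpeed (P ∘ Γ) 1) :
    IsGeodesicWithSpeed Γ 1 := fun t => (h2 t).imp fun _ a => ⟨a.1, fun s s' b c =>
  ((h.lip h1 (fun s t => by simpa using h2.dist_le s t) s s').trans_eq (one_mul _).symm).antisymm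
    ((a.2 s s' b c).ge.trans (h.le _ _))⟩

theorem geo_down (hM : HasSegments M) {Γ : ℝ → X} (h2 : IsGeodesicWithSpeed Γ 1) :
    IsGeodesicWithSpeed (P ∘ Γ) 1 := fun t => by
  obtain ⟨ρ, h3, h4⟩ := h.inj
  obtain ⟨ε, h5, h6⟩ := h2 t
  refine ⟨min ε (ρ / 4), by positivity, fun s s' a b => ?_⟩
  obtain ⟨a1, a2⟩ := lt_min_iff.1 a
  obtain ⟨b1, b2⟩ := lt_min_iff.1 b
  refine (h.iso hM h4 ?_).trans (h6 s s' a1 b1)
  linarith [h6 s s' a1 b1, abs_sub_le s t s', abs_sub_comm t s']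

omit h in
theorem _root_.Vale.Agent.P216MG.exists_list (hN : NonBranching M)
    (hf : (primeClosedGeodesicImages M).Finite) : ∃ J : Set (ℝ → M), J.Finite ∧
      (∀ c ∈ J, IsGeodesicWithSpeed c 1 ∧ ∃ τ > 0, Function.Periodic c τ) ∧
      ∀ c τ, IsGeodesicWithSpeed c 1 → 0 < τ → Function.Periodic c τ →
        ∃ c' ∈ J, ∃ β, ∀ t, c t = c' (t + β) := by
  obtain ⟨J, h1, h2, h3⟩ := (Finite.subset hf (t := range ''
    {c : ℝ → M | IsGeodesicWithSpeed c 1 ∧ ∃ τ > 0, Function.Periodic c τ})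
      (image_subset_iff.2 fun c ⟨a, _, b, d⟩ => range_mem_images a b d)).exists_subset_finite_image_eq
      Subset.rfl
  refine ⟨J ∪ (fun c t => c (-t)) '' J, h2.union (h2.image _), ?_, fun c τ a b d => ?_⟩
  · rintro c (e | ⟨c, e, rfl⟩)
    · exact h1 e
    · obtain ⟨a, τ, b, d⟩ := h1 e
      exact ⟨by simpa using a.comp_affine (Or.inr rfl) 0, τ, b, fun t => by
        simpa [add_comm] using d.neg (-t)⟩
  · obtain ⟨c', e, e'⟩ := h3.ge ⟨c, ⟨a, τ, b, d⟩, rfl⟩
    obtain ⟨_, rfl | rfl, β, k⟩ := eq_comp_of_range_subset hN a (h1 e).1 e'.ge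
    · exact ⟨c', Or.inl e, β, by simpa using k⟩
    · exact ⟨_, Or.inr ⟨c', e, rfl⟩, -β, by simpa [add_comm] using k⟩

theorem nice (hM : HasSegments M) (hN : NonBranching M) (hf : (primeClosedGeodesicImages M).Finite)
    {r : ℝ} (hr : 0 < r) (hu : ∀ x y m m' : M, dist x y < r → dist x m = dist x y / 2 →
      dist m y = dist x y / 2 → dist x m' = dist x y / 2 → dist m' y = dist x y / 2 → m = m') :
    ∃ (ι : Type) (_ : Finite ι) (c : ι → ℝ → X) (a : ι → G) (l : ι → ℝ) (ρ : ℝ),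
      Nice G X c a l ρ := by
  obtain ⟨J, h1, h2, h3⟩ := exists_list hN hf
  obtain ⟨ρ, h4, h5⟩ := h.inj
  have hl : ∀ {σ σ' : ℝ → X}, Continuous σ → Continuous σ' → P ∘ σ = P ∘ σ' → ∀ t, σ t = σ' t →
      σ = σ' := fun a b c t d => h.toQuo.cov.eq_of_comp_eq a b c t d
  have h6 : ∀ j : J, ∃ (c : ℝ → X) (a : G) (l : ℝ), P ∘ c = j ∧ Ax c a l ∧
      ∀ (g : G) β, Per c g β → ∃ m : ℤ, β = m * l := fun j => by
    obtain ⟨a, τ, b, d⟩ := h2 j j.2
    obtain ⟨l, l1, l2, l3⟩ := exists_generator_periods one_pos a b d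
    obtain ⟨x, hx⟩ := h.surj (j.1 0)
    obtain ⟨c, c1, -, c2⟩ := lift_curve h.toQuo a.continuous hx
    have c3 : ∀ t, P (c t) = j.1 t := congrFun c2
    obtain ⟨g, hg⟩ := h.orb (c 0) (c (0 + l)) (by rw [c3, c3, l2])
    exact ⟨c, g, l, c2, ⟨h.geo_up c1 (c2 ▸ a), l1, congrFun (hl (σ := fun t => c (t + l))
      (σ' := fun t => g • c t) (by fun_prop) (by fun_prop)
      (funext fun t => by simp only [Function.comp, h.inv, c3, l2 t]) 0 hg.symm)⟩,
      fun k β e => l3 β fun t => by rw [← c3, e, h.inv, c3]⟩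
  choose c a l h6 h7 h8 using h6
  refine ⟨J, h1, c, a, l, min r (ρ / 2), h.free, fun K L => h.toQuo.proper, h.toQuo.exists_compact,
    h.seg, fun σ σ' a b s t d e => hl a.continuous b.continuous (hN _ _ (h.geo_down hM a)
      (h.geo_down hM b) s t d fun u hu => congrArg P (e u hu)) _ (e _ ⟨left_lt_add_div_two.2 d,
        add_div_two_lt_right.2 d⟩), by positivity, fun x y m m' a b d e f => ?_, h7, h8,
    fun σ g L e => ?_⟩
  · obtain ⟨a1, a2⟩ := lt_min_iff.1 a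
    have k : ∀ {u v : X}, dist u v = dist x y / 2 → dist (P u) (P v) = dist (P x) (P y) / 2 :=
      fun k => by rw [h.iso hM h5 (by linarith), h.iso hM h5 a2, k]
    exact h5 _ _ (by linarith [dist_triangle_left m m' x])
      (hu _ _ _ _ ((h.le x y).trans_lt a1) (k b) (k d) (k e) (k f))
  · obtain ⟨c', a1, β, a2⟩ := h3 _ L (h.geo_down hM e.geo) e.pos fun t => by
      simp only [Function.comp, e.per t, h.inv]
    have a3 : ∀ t, P (c ⟨c', a1⟩ t) = c' t := congrFun (h6 ⟨c', a1⟩)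
    obtain ⟨k, hk⟩ := h.orb (c ⟨c', a1⟩ (0 + β)) (σ 0) ((a3 _).trans (a2 0).symm)
    have a4 := (h7 ⟨c', a1⟩).lip.continuous
    exact ⟨⟨c', a1⟩, k, β, congrFun (hl (σ' := fun t => k • c ⟨c', a1⟩ (t + β)) e.lip.continuous
      (by fun_prop) (funext fun t => by simp only [Function.comp, h.inv, a3, ← a2]) 0 hk.symm)⟩

end CovM

end Vale.Agent.P216MG
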