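import Vale.Agent.P216MG.CSA

/-!
A Margulis lemma for groups with malnormal maximal abelian subgroups.
-/

universe u

namespace Vale.Agent.P216MG

open Vale.Agent.P188 Vale.Agent.P188.H796 Filter
open scoped Pointwise

/-- proper length functions -/
structure Len {G : Type u} [Group G] (len : G → ℝ) : Prop where
  one : len 1 = 0
  mul : ∀ g h, len (g * h) ≤ len g + len h
  inv : ∀ g, len g⁻¹ = len g
  fin : ∀ s, {g | len g ≤ s}.Finite

/-- the number of elements of length at most `s` -/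
noncomputable def cnt {G : Type u} (len : G → ℝ) (s : ℝ) : ℕ := {g | len g ≤ s}.ncard

section
variable {G : Type u} [Group G] {len : G → ℝ}

theorem Len.nonneg (h : Len len) (g : G) : 0 ≤ len g := by
  have := h.mul g g⁻¹
  rw [mul_inv_cancel, h.one, h.inv] at this
  linarith

theorem Len.mono (h : Len len) {s t : ℝ} (hst : s ≤ t) : cnt len s ≤ cnt len t :=
  Set.ncard_le_ncard (fun _ hg => le_trans hg hst) (h.fin t)

theorem Len.pow (h : Len len) (g : G) (n : ℕ) : len (g ^ n) ≤ n * len g := by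
  induction n with
  | zero => simp [h.one]
  | succ n ih =>
    rw [pow_succ, Nat.cast_succ, add_mul, one_mul]
    exact (h.mul _ _).trans (by linarith)

theorem Len.pos (h : Len len) (hG : CSA G) {g : G} (hg : g ≠ 1) : 0 < len g := by
  by_contra h0
  obtain ⟨n, m, hnm, e⟩ : ∃ n m : ℕ, n < m ∧ g ^ n = g ^ m :=
    (h.fin 0).exists_lt_map_eq_of_forall_mem fun n => (h.pow g n).trans
      (mul_nonpos_of_nonneg_of_nonpos (Nat.cast_nonneg n) (not_lt.1 h0))
  refine hg (hG.tf g (m - n) (by omega) (mul_left_cancel (a := g ^ n) ?_))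
  rw [← pow_add, Nat.add_sub_cancel' hnm.le, mul_one, e]

end

theorem marg_cpt (C D : ℕ) : ∃ R : ℕ, ∀ (G : Type u) [Group G] (len : G → ℝ) (l : ℝ), CSA G →
    Len len → (∀ n : ℕ, n ≤ R → cnt len (n * l) ≤ C * (n + 1) ^ D) →
    ∀ a b, len a ≤ l → len b ≤ l → Commute a b := by
  classical
  by_contra hc
  push Not at hc
  choose G inst len l hG hl hN a b ha hb hab using hc
  have l0 : ∀ k, 0 ≤ l k := fun k => ((hl k).nonneg _).trans (ha k)
  let U := hyperfilter ℕ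
  let Bd : Subgroup (∀ k, G k) :=
    { carrier := {g | ∃ c : ℕ, ∀ k, len k (g k) ≤ c * l k}
      one_mem' := ⟨0, fun k => by simp [(hl k).one]⟩
      mul_mem' := fun ⟨c, hc⟩ ⟨c', hc'⟩ => ⟨c + c', fun k => ((hl k).mul _ _).trans (by
        rw [Nat.cast_add, add_mul]
        exact add_le_add (hc k) (hc' k))⟩
      inv_mem' := fun ⟨c, hc⟩ => ⟨c, fun k => ((hl k).inv _).le.trans (hc k)⟩ }
  let N : Subgroup Bd :=
    { carrier := {g | ∀ᶠ k in U, g.1 k = 1}
      one_mem' := Eventually.of_forall fun _ => rfl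
      mul_mem' := fun h1 h2 => (Eventually.and h1 h2).mono fun k h => by simp [h.1, h.2]
      inv_mem' := fun h1 => Eventually.mono h1 fun k h => by simp [h] }
  have hNn : N.Normal := ⟨fun n h g => Eventually.mono h fun k h => by simp [h]⟩
  have e : ∀ g h : Bd, (g : Bd ⧸ N) = h ↔ ∀ᶠ k in U, g.1 k = h.1 k := fun g h => by
    rw [QuotientGroup.eq]
    exact eventually_congr (Eventually.of_forall fun k => inv_mul_eq_one)
  have e1 : ∀ g : Bd, (g : Bd ⧸ N) = 1 ↔ ∀ᶠ k in U, g.1 k = 1 := fun g => e g 1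
  have ec : ∀ g h : Bd, Commute (g : Bd ⧸ N) h ↔ ∀ᶠ k in U, Commute (g.1 k) (h.1 k) :=
    fun g h => e (g * h) (h * g)
  have hQ : CSA (Bd ⧸ N) := by
    refine ⟨fun x n hn => ?_, fun x y z => ?_, fun x g => ?_⟩
    · obtain ⟨x, rfl⟩ := QuotientGroup.mk_surjective x
      exact fun h => (e1 x).2 (((e1 (x ^ n)).1 h).mono fun k h => (hG k).tf _ n hn h)
    · obtain ⟨x, rfl⟩ := QuotientGroup.mk_surjective x
      obtain ⟨y, rfl⟩ := QuotientGroup.mk_surjective y
      obtain ⟨z, rfl⟩ := QuotientGroup.mk_surjective z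
      rw [Ne, e1, ec, ec, ec, ← Ultrafilter.eventually_not]
      exact fun h1 h2 h3 => (h1.and (h2.and h3)).mono fun k h => (hG k).ct _ _ _ h.1 h.2.1 h.2.2
    · obtain ⟨x, rfl⟩ := QuotientGroup.mk_surjective x
      obtain ⟨g, rfl⟩ := QuotientGroup.mk_surjective g
      rw [Ne, e1, ec x g, ← Ultrafilter.eventually_not]
      exact fun h1 h2 => (h1.and ((ec x (g * x * g⁻¹)).1 h2)).mono fun k h =>
        (hG k).mal _ _ h.1 h.2
  let T : ℕ → Set (Bd ⧸ N) := fun m => {x | ∃ g : Bd, (g : Bd ⧸ N) = x ∧ ∀ k, len k (g.1 k) ≤ m * l k}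
  have hT : ∀ m (t : Set (Bd ⧸ N)), t.Finite → t ⊆ T m → t.ncard ≤ C * (m + 1) ^ D := by
    intro m t ht h
    have h' : ∀ x, x ∈ t → ∃ g : Bd, (g : Bd ⧸ N) = x ∧ ∀ k, len k (g.1 k) ≤ m * l k := h
    choose! g hg hg' using h'
    have h1 : ∀ᶠ k in U, ∀ x ∈ t, ∀ y ∈ t, (g x).1 k = (g y).1 k → x = y := by
      refine (eventually_all_finite ht).2 fun x hx => (eventually_all_finite ht).2 fun y hy => ?_
      by_cases hxy : x = y
      · exact Eventually.of_forall fun _ _ => hxy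
      · rw [← hg x hx, ← hg y hy, e, ← Ultrafilter.eventually_not] at hxy
        exact hxy.mono fun k h1 h2 => absurd h2 h1
    have h2 : ∀ᶠ k in U, m ≤ k := hyperfilter_le_cofinite
      (Nat.cofinite_eq_atTop ▸ eventually_ge_atTop m)
    obtain ⟨k, h3, h4⟩ := (h1.and h2).exists
    exact (Set.ncard_le_ncard_of_injOn (fun x => (g x).1 k) (fun x hx => hg' x hx k)
      (fun x hx y hy => h3 x hx y hy) ((hl k).fin _)).trans (hN k m h4)
  have hgr : GrowthLE (Bd ⧸ N) D := by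
    intro F hF
    have h1 : ∀ x : Bd ⧸ N, ∃ m, x ∈ T m := fun x => by
      obtain ⟨g, rfl⟩ := QuotientGroup.mk_surjective x
      obtain ⟨c, hc⟩ := g.2
      exact ⟨c, g, rfl, hc⟩
    choose f hf using h1
    obtain ⟨c, hc⟩ := (hF.image f).bddAbove
    have h2 : ∀ n, F ^ n ⊆ T (c * n) := fun n => by
      induction n with
      | zero =>
        intro x hx
        rw [pow_zero, Set.mem_one] at hx
        exact ⟨1, hx.symm, fun k => by simp [(hl k).one]⟩
      | succ n ih =>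
        rw [pow_succ]
        rintro _ ⟨x, hx, y, hy, rfl⟩
        obtain ⟨g, rfl, hg⟩ := ih hx
        obtain ⟨g', e', hg'⟩ := hf y
        refine ⟨g * g', by rw [← e']; rfl, fun k => ((hl k).mul _ _).trans ?_⟩
        rw [Nat.mul_succ, Nat.cast_add, add_mul]
        exact add_le_add (hg k) ((hg' k).trans (mul_le_mul_of_nonneg_right
          (Nat.cast_le.2 (hc ⟨y, hy, rfl⟩)) (l0 k)))
    refine ⟨C * (c + 1) ^ D, fun n => (hT _ _ (finite_pow hF n) (h2 n)).trans ?_⟩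
    rw [mul_assoc, ← mul_pow]
    exact Nat.mul_le_mul_left _ (Nat.pow_le_pow_left (by nlinarith) _)
  obtain ⟨k, hk⟩ := ((ec ⟨a, 1, by simpa using ha⟩ ⟨b, 1, by simpa using hb⟩).1
    (hQ.comm_of_growth hgr _ _)).exists
  exact hab k hk

section
variable {G : Type u} [Group G] {len : G → ℝ}

theorem CSA.sq_le (hG : CSA G) {A : Set G} (hA : ∀ a ∈ A, ∀ b ∈ A, Commute a b) {x s : G}
    (hx : x ∈ A) (h1 : x ≠ 1) (hs : ¬ Commute x s) {B : Set G} (hB : B.Finite)
    (h : ∀ a ∈ A, ∀ b ∈ A, a * s * b ∈ B) : A.ncard * A.ncard ≤ B.ncard := by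
  rw [← Set.ncard_prod]
  refine Set.ncard_le_ncard_of_injOn (fun p => p.1 * s * p.2) (fun p hp => h _ hp.1 _ hp.2) ?_ hB
  rintro ⟨a, b⟩ ⟨ha, hb⟩ ⟨a', b'⟩ ⟨ha', hb'⟩ e
  simp only at e ha hb ha' hb'
  have e1 : s⁻¹ * (a'⁻¹ * a) * s⁻¹⁻¹ = b' * b⁻¹ := by
    calc s⁻¹ * (a'⁻¹ * a) * s⁻¹⁻¹ = s⁻¹ * a'⁻¹ * (a * s * b) * b⁻¹ := by group
      _ = b' * b⁻¹ := by rw [e]; group
  have hu := (hA x hx a' ha').inv_right.mul_right (hA x hx a ha)
  have h2 : a'⁻¹ * a = 1 := by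
    by_contra h2
    refine hs (Commute.inv_right_iff.1 (hG.ct _ _ _ h2 hu.symm (hG.mal _ _ h2 ?_)))
    rw [e1]
    exact hG.ct _ _ _ h1 hu ((hA x hx b' hb').mul_right (hA x hx b hb).inv_right)
  obtain rfl := inv_mul_eq_one.1 h2
  rw [mul_left_cancel e]

omit [Group G] in
theorem Len.dbl {K : ℕ} {r : ℝ} (hd : ∀ s, 0 < s → 2 * s ≤ r → cnt len (2 * s) ≤ K * cnt len s)
    {s : ℝ} (hs : 0 < s) (j : ℕ) (h : 2 ^ j * s ≤ r) : cnt len (2 ^ j * s) ≤ K ^ j * cnt len s := by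
  induction j with
  | zero => simp
  | succ j ih =>
    have h1 : 0 < 2 ^ j * s := by positivity
    rw [pow_succ', mul_assoc] at h ⊢
    rw [pow_succ', mul_assoc]
    exact (hd _ h1 h).trans (Nat.mul_le_mul_left _ (ih (by linarith)))

end

/-- **Margulis lemma**: doubling up to scale `r` forces the short elements to commute. -/
theorem marg (K : ℕ) : ∃ R : ℝ, 1 ≤ R ∧ ∀ (G : Type u) [Group G] (len : G → ℝ) (r : ℝ), CSA G →
    Len len → (∀ s, 0 < s → 2 * s ≤ r → cnt len (2 * s) ≤ K * cnt len s) →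
    ∀ a b, R * len a ≤ r → R * len b ≤ r → Commute a b := by
  classical
  obtain ⟨R, hR⟩ := marg_cpt.{u} (K ^ 5 * 2 ^ K) K
  refine ⟨2 * R + 4, by linarith [Nat.cast_nonneg (α := ℝ) R], fun G _ len r hG hl hd a b ha hb => ?_⟩
  by_contra hab
  have hR0 : (0 : ℝ) < 2 * R + 4 := by positivity
  obtain ⟨⟨a, b⟩, ⟨⟨ha, hb⟩, hab⟩, hmin⟩ := Set.exists_min_image
    {p : G × G | p ∈ {g | len g ≤ r / (2 * R + 4)} ×ˢ {g | len g ≤ r / (2 * R + 4)} ∧
      ¬ Commute p.1 p.2} (fun p => max (len p.1) (len p.2))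
    (((hl.fin _).prod (hl.fin _)).subset fun _ h => h.1)
    ⟨(a, b), ⟨(le_div_iff₀' hR0).2 ha, (le_div_iff₀' hR0).2 hb⟩, hab⟩
  simp only [Set.mem_ofPred_eq] at ha hb hab hmin
  set l := max (len a) (len b) with hl'
  have hl1 : (2 * R + 4) * l ≤ r := (le_div_iff₀' hR0).1 (max_le ha hb)
  have hl0 : 0 < l := lt_max_of_lt_left (hl.pos hG fun e => hab (e ▸ Commute.one_left b))
  have hA : ∀ x ∈ {g | len g ≤ l / 2}, ∀ y ∈ {g | len g ≤ l / 2}, Commute x y := by
    intro x hx y hy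
    by_contra hxy
    have h1 : l / 2 ≤ r / (2 * R + 4) := (half_le_self hl0.le).trans (max_le ha hb)
    have h2 := hmin (x, y) ⟨⟨le_trans hx h1, le_trans hy h1⟩, hxy⟩
    have h3 : max (len x) (len y) ≤ l / 2 := max_le hx hy
    simp only at h2
    linarith
  have hRl : 0 ≤ (R : ℝ) * l := by positivity
  have h0 : ∀ s, 0 ≤ s → 1 ≤ cnt len s := fun s hs =>
    (Set.ncard_pos (hl.fin s)).2 ⟨1, hl.one.le.trans hs⟩
  have hK : 1 ≤ K := by
    have := (h0 _ (by positivity)).trans (hd l hl0 (by nlinarith))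
    exact Nat.pos_of_mul_pos_right this
  have hm : cnt len (l / 2) ≤ K ^ 2 := by
    by_cases hx : ∃ x ∈ {g | len g ≤ l / 2}, x ≠ 1
    · obtain ⟨x, hx, h1⟩ := hx
      obtain ⟨s, hs, hs'⟩ : ∃ s, len s ≤ l ∧ ¬ Commute x s := by
        by_contra h
        push Not at h
        exact hab (hG.ct x a b h1 (h a (le_max_left _ _)) (h b (le_max_right _ _)))
      have h2 := (hG.sq_le hA hx h1 hs' (hl.fin (2 ^ 2 * (l / 2))) fun c hc d hd => by
        have h3 := hl.mul (c * s) d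
        have h4 := hl.mul c s
        simp only [Set.mem_ofPred_eq] at hc hd ⊢
        linarith).trans (Len.dbl hd (half_pos hl0) 2 (by nlinarith))
      exact Nat.le_of_mul_le_mul_right h2 (h0 _ (half_pos hl0).le)
    · push Not at hx
      exact (Set.ncard_le_one (hl.fin _)).2 (fun x h1 y h2 => (hx x h1).trans (hx y h2).symm) |>.trans
        (Nat.one_le_pow _ _ hK)
  refine hab (hR G len l hG hl (fun n hn => ?_) a b (le_max_left _ _) (le_max_right _ _))
  obtain ⟨j, h1, h2⟩ : ∃ j, n < 2 ^ j ∧ 2 ^ j ≤ 2 * (n + 1) :=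
    ⟨Nat.log 2 n + 1, Nat.lt_pow_succ_log_self one_lt_two n, by
      rw [pow_succ']
      exact Nat.mul_le_mul_left _ (Nat.pow_log_le_add_one 2 n)⟩
  have h3 : ((2 : ℝ)) ^ j ≤ 2 * (R + 1) := by exact_mod_cast h2.trans (by omega)
  have h4 : (n : ℝ) ≤ 2 ^ j := by exact_mod_cast h1.le
  have h5 : K ^ j ≤ (2 * (n + 1)) ^ K :=
    calc K ^ j ≤ (2 ^ K) ^ j := Nat.pow_le_pow_left Nat.lt_two_pow_self.le _
      _ = (2 ^ j) ^ K := by rw [← pow_mul, ← pow_mul, mul_comm]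
      _ ≤ _ := Nat.pow_le_pow_left h2 _
  calc cnt len (n * l) ≤ cnt len (2 ^ (j + 1) * (l / 2)) := hl.mono (by rw [pow_succ]; nlinarith)
    _ ≤ K ^ (j + 1) * cnt len (l / 2) := Len.dbl hd (half_pos hl0) _ (by rw [pow_succ]; nlinarith)
    _ ≤ (2 * (n + 1)) ^ K * K * K ^ 2 := by
      rw [pow_succ]
      gcongr
    _ ≤ (2 * (n + 1)) ^ K * K ^ 5 := by
      rw [mul_assoc, ← pow_succ']
      exact Nat.mul_le_mul_left _ (Nat.pow_le_pow_right hK (by norm_num))
    _ = _ := by rw [mul_pow]; ring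

end Vale.Agent.P216MG
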