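import Mathlib.MeasureTheory.Measure.Hausdorff
import Mathlib.MeasureTheory.Measure.Lebesgue.Basic
import Mathlib.MeasureTheory.Constructions.Polish.Basic
import Mathlib.Topology.ShrinkingLemma

/-!
Minimal separators: spaces whose balls have small three dimensional measure are covered by three
disjoint families of small open sets.
-/

namespace Vale.Agent.P216MG

open Metric MeasureTheory Set Filter
open scoped ENNReal Topology

variable {N : Type*} [MetricSpace N] [MeasurableSpace N] [BorelSpace N]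

/-- the coarea inequality for spheres -/
theorem slice_le (A : Set N) (x : N) {d : ℝ} (hd : 0 ≤ d) {a b : ℝ} {m : ℝ≥0∞}
    (hm : ∀ s ∈ Ioo a b, m ≤ μH[d] (A ∩ sphere x s)) : m * ENNReal.ofReal (b - a) ≤ μH[d + 1] A := by
  rcases eq_or_ne (μH[d + 1] A) ∞ with hH | hH
  · rw [hH]
    exact le_top
  have h1 : ∀ k : ℕ, ∃ t : ℕ → Set N, A ⊆ ⋃ n, t n ∧ (∀ n, ediam (t n) ≤ ((k : ℝ≥0∞) + 1)⁻¹) ∧
      ∑' n, ⨆ _ : (t n).Nonempty, ediam (t n) ^ (d + 1) < μH[d + 1] A + ((k : ℝ≥0∞) + 1)⁻¹ := by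
    intro k
    have h2 : 0 < ((k : ℝ≥0∞) + 1)⁻¹ := ENNReal.inv_pos.2 (by simp)
    have h3 := ENNReal.lt_add_right hH h2.ne'
    conv_lhs at h3 => rw [Measure.hausdorffMeasure_apply]
    have h4 := (le_iSup₂_of_le (f := fun (r : ℝ≥0∞) (_ : 0 < r) => ⨅ (t : ℕ → Set N)
      (_ : A ⊆ ⋃ n, t n) (_ : ∀ n, ediam (t n) ≤ r),
        ∑' n, ⨆ _ : (t n).Nonempty, ediam (t n) ^ (d + 1)) _ h2 le_rfl).trans_lt h3
    simpa only [iInf_lt_iff, exists_prop] using h4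
  choose t h2 h3 h4 using h1
  have h0 : Tendsto (fun k : ℕ => ((k : ℝ≥0∞) + 1)⁻¹) atTop (𝓝 0) := by
    simpa [Function.comp_def] using ENNReal.tendsto_inv_nat_nhds_zero.comp (tendsto_add_atTop_nat 1)
  let I : ℕ → ℕ → Set ℝ := fun k n => closure ((dist · x) '' t k n)
  let g : ℕ → ℝ → ℝ≥0∞ := fun k s => ∑' n, (I k n).indicator (fun _ => ediam (t k n) ^ d) s
  have hg : ∀ k, Measurable (g k) := fun k => Measurable.tsum fun n =>
    measurable_const.indicator isClosed_closure.measurableSet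
  have h5 : ∀ k, ∫⁻ s, g k s ≤ μH[d + 1] A + ((k : ℝ≥0∞) + 1)⁻¹ := fun k => by
    rw [lintegral_tsum fun n =>
      (measurable_const.indicator isClosed_closure.measurableSet).aemeasurable]
    refine (ENNReal.tsum_le_tsum fun n => ?_).trans (h4 k).le
    rw [lintegral_indicator_const isClosed_closure.measurableSet]
    rcases (t k n).eq_empty_or_nonempty with h | h
    · simp [h]
    · rw [iSup_pos h, ENNReal.rpow_add_of_nonneg _ _ hd zero_le_one, ENNReal.rpow_one]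
      refine mul_le_mul_right ((Real.volume_le_diam _).trans ?_) _
      rw [ediam_closure]
      simpa using (LipschitzWith.dist_left x).ediam_image_le (t k n)
  have h6 : ∀ s, μH[d] (A ∩ sphere x s) ≤ liminf (fun k => g k s) atTop := fun s => by
    refine (Measure.hausdorffMeasure_le_liminf_tsum (ι := fun k => {n // s ∈ I k n}) d _ _ h0
      (fun k n => t k n.1) (Eventually.of_forall fun k n => h3 k n.1)
      (Eventually.of_forall fun k p hp => ?_)).trans (le_of_eq ?_)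
    · obtain ⟨n, hn⟩ := mem_iUnion.1 (h2 k hp.1)
      exact mem_iUnion.2 ⟨⟨n, subset_closure ⟨p, hn, hp.2⟩⟩, hn⟩
    · congr 1
      funext k
      exact tsum_subtype {n | s ∈ I k n} fun n => ediam (t k n) ^ d
  calc m * ENNReal.ofReal (b - a) = ∫⁻ s, (Ioo a b).indicator (fun _ => m) s := by
        rw [lintegral_indicator_const measurableSet_Ioo, Real.volume_Ioo]
    _ ≤ ∫⁻ s, liminf (fun k => g k s) atTop := lintegral_mono fun s =>
        indicator_apply_le' (fun hs => (hm s hs).trans (h6 s)) fun _ => zero_le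
    _ ≤ liminf (fun k => ∫⁻ s, g k s) atTop := lintegral_liminf_le hg
    _ ≤ liminf (fun k : ℕ => μH[d + 1] A + ((k : ℝ≥0∞) + 1)⁻¹) atTop :=
        liminf_le_liminf (Eventually.of_forall h5)
    _ = _ := by simpa using (tendsto_const_nhds.add h0).liminf_eq

variable {ι : Type*} (c : ι → N) (r : ι → ℝ)

/-- disjoint families of small open sets -/
def Fam (F : Set (Set N)) : Prop :=
  (∀ U ∈ F, IsOpen U ∧ ∃ i, U ⊆ ball (c i) (r i)) ∧ F.PairwiseDisjoint id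

/-- `Z'` cuts `Z` into small pieces -/
def Sep (Z Z' : Set N) : Prop := ∃ F, Fam c r F ∧ Z \ Z' ⊆ ⋃₀ F

variable {c r}

omit [MeasurableSpace N] [BorelSpace N] in
theorem Sep.cut {Z Z' : Set N} (h : Sep c r Z Z') (i : ι) {s : ℝ} (hs : s ≤ r i) :
    Sep c r Z (Z' \ ball (c i) s ∪ Z ∩ sphere (c i) s) := by
  obtain ⟨F, ⟨h1, h2⟩, h3⟩ := h
  refine ⟨insert (ball (c i) s) ((· \ closedBall (c i) s) '' F), ⟨?_, ?_⟩, fun p hp => ?_⟩
  · rintro _ (rfl | ⟨U, hU, rfl⟩)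
    · exact ⟨isOpen_ball, i, ball_subset_ball hs⟩
    · obtain ⟨h4, j, h5⟩ := h1 U hU
      exact ⟨h4.sdiff isClosed_closedBall, j, sdiff_subset.trans h5⟩
  · refine PairwiseDisjoint.insert ?_ ?_
    · rintro _ ⟨U, hU, rfl⟩ _ ⟨V, hV, rfl⟩ hne
      exact (h2 hU hV fun e => hne (by rw [e])).mono sdiff_subset sdiff_subset
    · rintro _ ⟨U, -, rfl⟩ -
      exact disjoint_sdiff_right.mono_left ball_subset_closedBall
  · by_cases h4 : p ∈ ball (c i) s
    · exact ⟨_, mem_insert _ _, h4⟩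
    · obtain ⟨U, hU, h5⟩ := h3 ⟨hp.1, fun h5 => hp.2 (Or.inl ⟨h5, h4⟩)⟩
      exact ⟨_, Or.inr ⟨U, hU, rfl⟩, h5, fun h6 => hp.2 (Or.inr ⟨hp.1,
        le_antisymm h6 (not_lt.1 h4)⟩)⟩

theorem exists_sep [Finite ι] {d : ℝ} (hd : 0 ≤ d) {Z : Set N} {a b : ι → ℝ} {m : ι → ℝ≥0∞}
    (hb : ∀ i, b i ≤ r i) (hc : ∀ p, ∃ i, p ∈ ball (c i) (a i))
    (h : ∀ i, μH[d + 1] (Z ∩ ball (c i) (b i)) < m i * ENNReal.ofReal (b i - a i)) :
    ∃ Z', Sep c r Z Z' ∧ ∀ i, μH[d] (Z' ∩ ball (c i) (a i)) < m i := by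
  classical
  have h1 : ∀ i, ∃ s ∈ Ioo (a i) (b i), μH[d] (Z ∩ sphere (c i) s) < m i := fun i => by
    by_contra h1
    push Not at h1
    refine (h i).not_ge (slice_le _ (c i) hd fun s hs => (h1 s hs).trans (measure_mono ?_))
    exact fun p hp => ⟨⟨hp.1, lt_of_eq_of_lt hp.2 hs.2⟩, hp.2⟩
  choose s hs h1 using h1
  have h2 : ∀ T : Finset ι, ∃ Z', Sep c r Z Z' ∧ μH[d] (Z' ∩ ⋃ i ∈ T, ball (c i) (s i)) < ∞ := by
    intro T
    induction T using Finset.induction_on with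
    | empty => exact ⟨Z, ⟨∅, ⟨by simp, by simp⟩, by simp⟩, by simp⟩
    | insert j T _ ih =>
      obtain ⟨Z', h2, h3⟩ := ih
      refine ⟨_, h2.cut j ((hs j).2.le.trans (hb j)), (measure_mono ?_).trans_lt
        ((measure_union_le _ _).trans_lt (ENNReal.add_lt_top.2 ⟨h3, (h1 j).trans_le le_top⟩))⟩
      rintro p ⟨h4 | h4, h5⟩
      · rw [Finset.set_biUnion_insert] at h5
        exact Or.inl ⟨h4.1, h5.resolve_left h4.2⟩
      · exact Or.inr h4
  have := Fintype.ofFinite ι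
  obtain ⟨Z0, h3, h4⟩ := h2 Finset.univ
  rw [inter_eq_left.2 fun p _ => let ⟨i, hi⟩ := hc p
    mem_iUnion₂.2 ⟨i, Finset.mem_univ _, ball_subset_ball (hs i).1.le hi⟩] at h4
  obtain ⟨δ, h5, h6⟩ : ∃ δ : ℝ≥0∞, 0 < δ ∧ ∀ i, μH[d] (Z ∩ sphere (c i) (s i)) + δ < m i := by
    have : ∀ᶠ δ in 𝓝[>] (0 : ℝ≥0∞), ∀ i, μH[d] (Z ∩ sphere (c i) (s i)) + δ < m i :=
      nhdsWithin_le_nhds (eventually_all.2 fun i => (continuous_const.add continuous_id).tendsto 0
        |>.eventually_lt_const (by simpa using h1 i))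
    exact (eventually_mem_nhdsWithin.and this).exists
  have h7 : ⨅ (Z' : Set N) (_ : Sep c r Z Z'), μH[d] Z' ≠ ∞ := ((iInf₂_le Z0 h3).trans_lt h4).ne
  by_cases h8 : δ = ∞
  · exact ⟨Z0, h3, fun i => absurd (h6 i) (by simp [h8])⟩
  obtain ⟨Z', h9, h10⟩ : ∃ Z', Sep c r Z Z' ∧
      μH[d] Z' < (⨅ (Z' : Set N) (_ : Sep c r Z Z'), μH[d] Z') + δ := by
    simpa only [iInf_lt_iff, exists_prop] using ENNReal.lt_add_right h7 h5.ne'
  refine ⟨Z', h9, fun i => (measure_mono (inter_subset_inter_right _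
    (ball_subset_ball (hs i).1.le))).trans_lt (lt_of_le_of_lt ?_ (h6 i))⟩
  have h11 : μH[d] (Z' \ ball (c i) (s i)) ≠ ∞ :=
    ((measure_mono sdiff_subset).trans_lt (h10.trans_le le_top)).ne
  rw [← ENNReal.add_le_add_iff_right h11, measure_inter_add_sdiff _ measurableSet_ball]
  refine h10.le.trans ?_
  rw [add_right_comm, add_comm (μH[d] (Z ∩ _))]
  exact add_le_add_left ((iInf₂_le _ (h9.cut i ((hs i).2.le.trans (hb i)))).trans
    (measure_union_le _ _)) _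

/-- three disjoint families of small open sets -/
theorem three_fam [Finite ι] (hr : ∀ i, 0 < r i) (hc : ∀ p, ∃ i, p ∈ ball (c i) (r i / 8))
    (h : ∀ i, μH[3] (ball (c i) (r i)) < ENNReal.ofReal (r i ^ 3 / 64)) :
    ∃ F : Fin 3 → Set (Set N), (∀ j, Fam c r (F j)) ∧ ∀ p, ∃ j, p ∈ ⋃₀ F j := by
  have hc' : ∀ {θ : ℝ}, θ ≤ 8 → 0 < θ → ∀ p, ∃ i, p ∈ ball (c i) (r i / θ) := fun h1 h2 p =>
    (hc p).imp fun i hi => ball_subset_ball (div_le_div_of_nonneg_left (hr i).le h2 h1) hi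
  obtain ⟨Z2, ⟨F2, h1, h2⟩, h3⟩ := exists_sep (r := r) (d := 2) (Z := univ) (b := r)
    (m := fun i => ENNReal.ofReal (r i ^ 2 / 32)) zero_le_two (fun _ => le_rfl)
    (hc' (θ := 2) (by norm_num) two_pos) fun i => by
      rw [univ_inter, ← ENNReal.ofReal_mul (by positivity), show (2 : ℝ) + 1 = 3 by norm_num]
      convert h i using 2
      ring
  obtain ⟨Z1, ⟨F1, h4, h5⟩, h6⟩ := exists_sep (r := r) (d := 1) (Z := Z2) (b := fun i => r i / 2)
    (m := fun i => ENNReal.ofReal (r i / 8)) zero_le_one (fun i => half_le_self (hr i).le)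
    (hc' (θ := 4) (by norm_num) four_pos) fun i => by
      rw [← ENNReal.ofReal_mul (by have := hr i; positivity), one_add_one_eq_two]
      convert h3 i using 2
      ring
  obtain ⟨Z0, ⟨F0, h7, h8⟩, h9⟩ := exists_sep (r := r) (d := 0) (Z := Z1) (b := fun i => r i / 4)
    (m := fun _ => 1) le_rfl (fun i => by linarith [hr i]) hc fun i => by
      rw [one_mul, zero_add]
      convert h6 i using 2
      ring
  refine ⟨![F2, F1, F0], fun j => by fin_cases j; exacts [h1, h4, h7], fun p => ?_⟩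
  by_cases e2 : p ∈ Z2
  · by_cases e1 : p ∈ Z1
    · obtain ⟨i, hi⟩ := hc p
      exact ⟨2, h8 ⟨e1, fun e0 => (h9 i).not_ge
        (Measure.one_le_hausdorffMeasure_zero_of_nonempty ⟨p, e0, hi⟩)⟩⟩
    · exact ⟨1, h5 ⟨e2, e1⟩⟩
  · exact ⟨0, h2 ⟨trivial, e2⟩⟩

omit [MeasurableSpace N] [BorelSpace N] in
/-- a choice of sets with locally at most three values -/
theorem exists_choice {F : Fin 3 → Set (Set N)} (h : ∀ j, Fam c r (F j))
    (hc : ∀ p, ∃ j, p ∈ ⋃₀ F j) : ∃ φ : N → Set N, (∀ p, p ∈ φ p ∧ ∃ i, φ p ⊆ ball (c i) (r i)) ∧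
      ∀ p, ∃ u : Fin 3 → N, ∀ᶠ q in 𝓝 p, ∃ j, φ q = φ (u j) ∧ p ∈ φ q := by
  obtain ⟨V, h1, h2, h3⟩ := exists_iUnion_eq_closed_subset (u := fun j => ⋃₀ F j)
    (fun j => isOpen_sUnion fun U hU => ((h j).1 U hU).1) (fun _ => toFinite _)
    (eq_univ_of_forall fun p => mem_iUnion.2 (hc p))
  have h4 : ∀ p, ∃ j, ∃ U ∈ F j, p ∈ V j ∧ p ∈ U := fun p => by
    obtain ⟨j, hj⟩ := mem_iUnion.1 (h1.ge (mem_univ p))
    obtain ⟨U, hU, h4⟩ := h3 j hj
    exact ⟨j, U, hU, hj, h4⟩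
  choose κ φ h4 h5 h6 using h4
  refine ⟨φ, fun p => ⟨h6 p, ((h _).1 _ (h4 p)).2⟩, fun p => ?_⟩
  have h7 : ∀ j, ∃ u, ∀ᶠ q in 𝓝 p, κ q = j → φ q = φ u ∧ p ∈ φ q := fun j => by
    by_cases e : p ∈ V j
    · obtain ⟨U, hU, hp⟩ := h3 j e
      have h8 : ∀ q ∈ U, κ q = j → φ q = U := fun q hq e =>
        (h j).2.elim_set (e ▸ h4 q) hU q (h6 q) hq
      have h9 := ((h j).1 U hU).1.mem_nhds hp
      by_cases e' : ∃ u, φ u = U
      · obtain ⟨u, hu⟩ := e'
        exact ⟨u, mem_of_superset h9 fun q hq e => ⟨(h8 q hq e).trans hu.symm,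
          (h8 q hq e).symm ▸ hp⟩⟩
      · exact ⟨p, mem_of_superset h9 fun q hq e => absurd ⟨q, h8 q hq e⟩ e'⟩
    · exact ⟨p, mem_of_superset ((h2 j).isOpen_compl.mem_nhds e) fun q hq e =>
        absurd (e ▸ h5 q) hq⟩
  choose u hu using h7
  exact ⟨u, (eventually_all.2 hu).mono fun q hq => ⟨κ q, hq _ rfl⟩⟩

end Vale.Agent.P216MG
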