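import Vale.Agent.P216.Defs
import Mathlib.Geometry.Manifold.Riemannian.Basic
import Mathlib.AlgebraicTopology.FundamentalGroupoid.FundamentalGroup

/-!
The statement about cyclic centralisers.
-/

open scoped Manifold ContDiff
open Bundle

namespace Vale.Agent.P216MG

/-- **T2**: all centralisers are cyclic. -/
def T2Goal : Prop :=
  ∀ (E : Type) [NormedAddCommGroup E] [NormedSpace ℝ E] [FiniteDimensional ℝ E]
    (M : Type) [MetricSpace M] [CompactSpace M] [ChartedSpace E M] [IsManifold 𝓘(ℝ, E) ∞ M]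
    [RiemannianBundle (fun x : M => TangentSpace 𝓘(ℝ, E) x)]
    [IsContMDiffRiemannianBundle 𝓘(ℝ, E) ∞ E (fun x : M => TangentSpace 𝓘(ℝ, E) x)]
    [IsRiemannianManifold 𝓘(ℝ, E) M] (x₀ : M), (P216.primeClosedGeodesicImages M).Finite →
    (∀ (x : FundamentalGroup M x₀) (n : ℕ), n ≠ 0 → x ^ n = 1 → x = 1) →
    (∀ (z t : FundamentalGroup M x₀) (s : ℕ), s ≠ 0 → t * z * t⁻¹ = z ^ (3 ^ s) → z = 1) →
    ∀ x : FundamentalGroup M x₀, x ≠ 1 → ∃ z, ∀ y, Commute x y → y ∈ Subgroup.zpowers z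

end Vale.Agent.P216MG
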