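import Vale.Agent.P216MG.Act
import Vale.Agent.P216MG.Sep
import Vale.Agent.P216MG.Alg

/-!
The thin lemma for abstract actions.
-/

namespace Vale.Agent.P216MG

open Vale.Agent.P216.ASCoh Metric MeasureTheory Set Filter
open scoped Pointwise Topology ENNReal

/-- subgroups with the action by conjugation -/
def Col (G : Type) [Group G] : Type := Subgroup G

variable {G : Type} [Group G]

instance : MulAction G (Col G) := MulAction.compHom (Subgroup G) (MulAut.conj : G →* MulAut G)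

/-- centralisers -/
def cz (z : G) : Col G := Subgroup.centralizer {z}

theorem smul_cz (g z : G) : g • cz z = cz (g * z * g⁻¹) := by
  refine Subgroup.ext fun x => (Subgroup.mem_pointwise_smul_iff_inv_smul_mem).trans ?_
  simp only [cz, Subgroup.mem_centralizer_singleton_iff, MulAut.smul_def, MulAut.conj_inv_apply]
  constructor
  · intro h
    calc x * (g * z * g⁻¹) = g * (g⁻¹ * x * g * z) * g⁻¹ := by group
      _ = _ := by rw [h]; group
  · intro h
    calc g⁻¹ * x * g * z = g⁻¹ * (x * (g * z * g⁻¹)) * g := by group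
      _ = _ := by rw [h]; group

theorem CSA.cz_eq (hG : CSA G) {z w : G} (hz : z ≠ 1) (hw : w ≠ 1) : cz z = cz w ↔ Commute z w := by
  refine ⟨fun h => ?_, fun h => Subgroup.ext fun x => ?_⟩
  · have : z ∈ Subgroup.centralizer {w} :=
      (show Subgroup.centralizer {z} = Subgroup.centralizer {w} from h) ▸
        Subgroup.mem_centralizer_singleton_iff.2 rfl
    exact Subgroup.mem_centralizer_singleton_iff.1 this
  · simp only [cz, Subgroup.mem_centralizer_singleton_iff]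
    exact ⟨fun e => hG.ct z x w hz (Commute.symm e) h, fun e => hG.ct w x z hw (Commute.symm e) h.symm⟩

theorem conj_ne {g z : G} (hz : z ≠ 1) : g * z * g⁻¹ ≠ 1 := by simpa using hz

theorem CSA.fix_iff (hG : CSA G) {z g : G} (hz : z ≠ 1) : g • cz z = cz z ↔ Commute z g := by
  rw [smul_cz, hG.cz_eq (conj_ne hz) hz]
  exact ⟨fun h => hG.mal z g hz h.symm, fun h => by
    rw [← h.eq, mul_inv_cancel_right]⟩

/-- invariant cocycles are invariant coboundaries on tuples with at most three colours -/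
theorem CSA.three (hG : CSA G)
    (hc : ∀ x : G, x ≠ 1 → ∃ z : G, ∀ y, Commute x y → y ∈ Subgroup.zpowers z)
    {X k : Type} [Field k] [MulAction G X] (free : ∀ (g : G) (x : X), g • x = x → g = 1)
    [DecidableEq (Col G)] {φ : X → Col G} (hφ : ∀ (g : G) x, φ (g • x) = g • φ x)
    (h1 : ∀ x, ∃ z ≠ 1, φ x = cz z) {f : Cochain X k 3} (hf : ∀ (g : G) x, f (g • x) = f x)
    (h0 : cobd f = 0) : ∃ h : Cochain X k 2, (∀ (g : G) x, h (g • x) = h x) ∧
      ∀ x, (col φ x).card ≤ 3 → f x = cobd h x := by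
  obtain ⟨h, h2, h3⟩ := few (k := k) hφ free (fun g j hj e => hG.tf g j.natAbs
    (Int.natAbs_ne_zero.2 hj) (by rwa [← zpow_natCast, Int.natCast_natAbs, zpow_abs_eq_one]))
    3 2 ⊤ {σ | ∀ C ∈ σ, ∃ z ≠ 1, C = cz z} f le_rfl (Or.inr one_le_two)
    (fun σ a τ b C c => a C (b c)) (fun g σ a C b => by
      obtain ⟨C, b', rfl⟩ := Finset.mem_smul_finset.1 b
      obtain ⟨z, c, rfl⟩ := a C b'
      exact ⟨_, conj_ne c, smul_cz g.1 z⟩)
    (fun σ a b g e => by
      have h2 : ∀ z ≠ 1, cz z ∈ σ → Commute g.1 z := fun z hz hσ => by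
        obtain ⟨n, m, hnm, e'⟩ : ∃ n m : ℕ, n < m ∧ g ^ n • cz z = g ^ m • cz z :=
          σ.finite_toSet.exists_lt_map_eq_of_forall_mem fun n => by
            induction n with
            | zero => simpa using hσ
            | succ n ih =>
              rw [pow_succ', mul_smul, ← e]
              exact Finset.smul_mem_smul_finset ih
        refine hG.root (n := m - n) (by omega) ((hG.fix_iff hz).1 ?_).symm
        rw [← Nat.add_sub_cancel' hnm.le, pow_add, mul_smul, smul_left_cancel_iff] at e'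
        exact e'.symm
      obtain ⟨C, c, C', c', hne⟩ := Finset.one_lt_card.1 b
      obtain ⟨z, hz, rfl⟩ := a C c
      obtain ⟨w, hw, rfl⟩ := a C' c'
      by_contra hg
      exact hne ((hG.cz_eq hz hw).2 (hG.ct g.1 z w (fun e => hg (Subtype.ext e)) (h2 z hz c)
        (h2 w hw c'))))
    (fun σ a b => by
      obtain ⟨C, rfl⟩ := Finset.card_eq_one.1 b
      obtain ⟨z, hz, rfl⟩ := a C (Finset.mem_singleton_self C)
      obtain ⟨t, ht⟩ := hc z hz
      simp only [Finset.smul_finset_singleton, Finset.singleton_inj]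
      refine ⟨⟨t, trivial⟩, (hG.fix_iff hz).2 ?_, fun g hg => ?_⟩
      · obtain ⟨j, rfl⟩ := ht z (Commute.refl z)
        exact Commute.zpow_self t j
      · obtain ⟨j, hj⟩ := ht g ((hG.fix_iff hz).1 hg)
        exact ⟨j, Subtype.ext hj⟩)
    (fun g => hf g) fun x _ _ => congrFun h0 x
  refine ⟨h, fun g => h2 ⟨g, trivial⟩, fun x => h3 x fun C hC => ?_⟩
  obtain ⟨i, -, rfl⟩ := Finset.mem_image.1 hC
  exact h1 _

theorem exists_idx {N : Type*} [MetricSpace N] [MeasurableSpace N] [BorelSpace N] {ι : Type*}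
    [Finite ι] {c : ι → N} {r : ι → ℝ} (hr : ∀ i, 0 < r i) (hc : ∀ p, ∃ i, p ∈ ball (c i) (r i / 8))
    (h : ∀ i, μH[3] (ball (c i) (r i)) < ENNReal.ofReal (r i ^ 3 / 64)) :
    ∃ κ : N → ι, (∀ p, p ∈ ball (c (κ p)) (r (κ p))) ∧
      ∀ p, ∃ u : Fin 3 → ι, ∀ᶠ q in 𝓝 p, ∃ j, κ q = u j ∧ p ∈ ball (c (u j)) (r (u j)) := by
  obtain ⟨F, h1, h2⟩ := three_fam hr hc h
  obtain ⟨ψ, h3, h4⟩ := exists_choice h1 h2
  let J : {U : Set N // ∃ i, U ⊆ ball (c i) (r i)} → ι := fun U => U.2.choose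
  refine ⟨fun p => J ⟨ψ p, (h3 p).2⟩, fun p => (h3 p).2.choose_spec (h3 p).1, fun p => ?_⟩
  obtain ⟨u, hu⟩ := h4 p
  exact ⟨fun j => J ⟨ψ (u j), (h3 _).2⟩, hu.mono fun q ⟨j, e, hp⟩ =>
    ⟨j, congrArg J (Subtype.ext e), (h3 (u j)).2.choose_spec (e ▸ hp)⟩⟩

/-- `π` is the quotient map of an isometric action, and balls lift -/
structure Quo (G : Type) [Group G] {X N : Type} [PseudoMetricSpace X] [MulAction G X]
    [PseudoMetricSpace N] (π : X → N) : Prop where
  cont : Continuous π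
  surj : Function.Surjective π
  inv : ∀ (g : G) y, π (g • y) = π y
  orb : ∀ y y', π y = π y' → ∃ g : G, g • y = y'
  lift : ∀ y r, ball (π y) r ⊆ π '' ball y r
  free : ∀ (g : G) (y : X), g • y = y → g = 1

theorem thin_top (hG : CSA G) [Nontrivial G]
    (hc : ∀ x : G, x ≠ 1 → ∃ z : G, ∀ y, Commute x y → y ∈ Subgroup.zpowers z)
    {X N k : Type} [Field k] [PseudoMetricSpace X] [MulAction G X] [IsIsometricSMul G X]
    [MetricSpace N] [CompactSpace N] [MeasurableSpace N] [BorelSpace N] {π : X → N}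
    (hπ : Quo G π) {ρ : N → ℝ} (hρ : ∀ p, 0 < ρ p)
    (h1 : ∀ (y : X) (a b : G), dist y (a • y) ≤ 2 * ρ (π y) → dist y (b • y) ≤ 2 * ρ (π y) →
      Commute a b)
    (h2 : ∀ p, μH[3] (ball p (ρ p)) < ENNReal.ofReal (ρ p ^ 3 / 64))
    {f : Cochain X k 3} (hf : ∀ (g : G) x, f (g • x) = f x) (h0 : cobd f = 0) :
    ∃ h : Cochain X k 2, (∀ (g : G) x, h (g • x) = h x) ∧ LocZero (f - cobd h) := by
  classical
  obtain ⟨T, hT⟩ := isCompact_univ.elim_finite_subcover (fun p => ball p (ρ p / 8))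
    (fun _ => isOpen_ball) fun p _ => mem_iUnion.2 ⟨p, mem_ball_self (by linarith [hρ p])⟩
  obtain ⟨κ, h3, h4⟩ := exists_idx (ι := T) (c := Subtype.val) (r := fun i => ρ i)
    (fun i => hρ i) (fun p => let ⟨i, hi, h⟩ := mem_iUnion₂.1 (hT (mem_univ p)); ⟨⟨i, hi⟩, h⟩)
    fun i => h2 i
  choose l hl using hπ.surj
  have h5 : ∀ p : N, ∃ z : G, z ≠ 1 ∧ ∀ a : G, dist (l p) (a • l p) ≤ 2 * ρ p → Commute z a := by
    intro p
    by_cases e : ∃ z : G, z ≠ 1 ∧ dist (l p) (z • l p) ≤ 2 * ρ p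
    · obtain ⟨z, hz, e⟩ := e
      exact ⟨z, hz, fun a ha => h1 (l p) z a (by rwa [hl]) (by rwa [hl])⟩
    · obtain ⟨z, hz⟩ := exists_ne (1 : G)
      exact ⟨z, hz, fun a ha => by
        rw [not_not.1 fun h => e ⟨a, h, ha⟩]
        exact Commute.one_right z⟩
  choose z hz h5 using h5
  have h6 : ∀ y p, π y ∈ ball p (ρ p) → ∃ g : G, y ∈ ball (g • l p) (ρ p) := fun y p h => by
    obtain ⟨y', h6, h7⟩ := hπ.lift (l p) (ρ p) (by rwa [hl])
    obtain ⟨g, rfl⟩ := hπ.orb _ _ h7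
    exact ⟨g, by rwa [mem_ball, dist_smul]⟩
  choose γ hγ using fun y => h6 y _ (h3 (π y))
  have h7 : ∀ y (p : T) (g : G), κ (π y) = p → y ∈ ball (g • l p) (ρ p) →
      γ y • cz (z (κ (π y))) = g • cz (z p) := by
    rintro y _ g rfl h
    rw [← inv_smul_eq_iff, ← mul_smul, hG.fix_iff (hz _)]
    refine h5 _ _ ?_
    rw [← dist_smul g, mul_smul, smul_inv_smul]
    linarith [dist_triangle_left (g • l (κ (π y))) (γ y • l (κ (π y))) y, mem_ball.1 h,
      mem_ball.1 (hγ y)]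
  obtain ⟨h, h8, h9⟩ := hG.three hc hπ.free (φ := fun y => γ y • cz (z (κ (π y))))
    (fun g y => by
      rw [← mul_smul]
      refine h7 _ _ _ (by rw [hπ.inv]) ?_
      rw [mem_ball, mul_smul, dist_smul]
      exact hγ y)
    (fun y => ⟨_, conj_ne (hz _), smul_cz _ _⟩) hf h0
  refine ⟨h, h8, fun y => ?_⟩
  obtain ⟨u, hu⟩ := h4 (π y)
  choose! g hg using h6 y
  refine ⟨{y' | ∃ j, γ y' • cz (z (κ (π y'))) = g (u j) • cz (z (u j))}, ?_, fun x hx =>
    sub_eq_zero.2 (h9 x ((Finset.card_le_card (t := Finset.univ.image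
      fun j => g (u j) • cz (z (u j))) fun C hC => ?_).trans (Finset.card_image_le.trans (by simp))))⟩
  · have h10 : ∀ᶠ y' in 𝓝 y, ∀ j, π y ∈ ball (u j : N) (ρ (u j)) →
        y' ∈ ball (g (u j) • l (u j)) (ρ (u j)) := eventually_all.2 fun j => by
      by_cases e : π y ∈ ball (u j : N) (ρ (u j))
      · exact mem_of_superset (isOpen_ball.mem_nhds (hg _ e)) fun _ h _ => h
      · exact Eventually.of_forall fun _ h => absurd h e
    filter_upwards [h10, (hπ.cont.tendsto y).eventually hu] with y' a ⟨j, b, c⟩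
    exact ⟨j, h7 _ _ _ b (a j c)⟩
  · obtain ⟨i, -, rfl⟩ := Finset.mem_image.1 hC
    obtain ⟨j, hj⟩ := hx i
    exact Finset.mem_image.2 ⟨j, Finset.mem_univ _, hj.symm⟩

/-- **Thin lemma** for abstract actions. -/
theorem thin_abs (K : ℕ) : ∃ R : ℝ, 1 ≤ R ∧ ∀ (G : Type) [Group G] [Nontrivial G] (X N k : Type)
    [Field k] [PseudoMetricSpace X] [MulAction G X] [IsIsometricSMul G X] [MeasurableSpace X]
    [OpensMeasurableSpace X] [MetricSpace N] [CompactSpace N] [MeasurableSpace N] [BorelSpace N]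
    (π : X → N) (μ : Measure X) (r : N → ℝ) (f : Cochain X k 3),
    (∀ (x : G) (n : ℕ), n ≠ 0 → x ^ n = 1 → x = 1) →
    (∀ x : G, x ≠ 1 → ∃ z : G, ∀ y, Commute x y → y ∈ Subgroup.zpowers z) → Quo G π →
    (∀ (y : X) s, {g : G | dist y (g • y) ≤ s}.Finite) →
    (∀ (y : X) (g : G) s, μ (ball (g • y) s) = μ (ball y s)) →
    (∀ (y : X) s, 0 < s → μ (ball y s) ≠ 0 ∧ μ (ball y s) ≠ ∞) → (∀ p, 0 < r p) →
    (∀ y s, 0 < s → 2 * s ≤ r (π y) → μ (ball y (2 * s)) ≤ K * μ (ball y s)) →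
    (∀ p, μH[3] (ball p (r p / R)) < ENNReal.ofReal ((r p / R) ^ 3 / 64)) →
    (∀ (g : G) x, f (g • x) = f x) → cobd f = 0 →
    ∃ h : Cochain X k 2, (∀ (g : G) x, h (g • x) = h x) ∧ LocZero (f - cobd h) := by
  obtain ⟨R, h1, hR⟩ := marg_act.{0, 0} K
  refine ⟨2 * R, by linarith, fun G _ _ X N k _ _ _ _ _ _ _ _ _ _ π μ r f tf hc hπ h2 h3 h4 h5 h6 h7
    hf h0 => thin_top (csa_of_cyclic tf hc) hc hπ (ρ := fun p => r p / (2 * R))
      (fun p => div_pos (h5 p) (by linarith)) (fun y a b ha hb => ?_) h7 hf h0⟩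
  have e : 2 * (r (π y) / (2 * R)) = r (π y) / R := by field_simp
  rw [e, le_div_iff₀' (by linarith)] at ha hb
  exact hR G X μ y _ (csa_of_cyclic tf hc) (h2 y) (h3 y) (fun s hs _ => h4 y s hs) (h6 y) a b ha hb

end Vale.Agent.P216MG
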