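import Vale.Agent.P216MG.Thin

/-!
The thin lemma for extended distance functions (the covering space may be disconnected).
-/

namespace Vale.Agent.P216MG

open Vale.Agent.P216.ASCoh Metric MeasureTheory Set Filter
open scoped Pointwise Topology ENNReal

/-- invariant extended distance functions -/
structure EDist (G : Type) [Group G] {X : Type} [MulAction G X] (D : X → X → ℝ≥0∞) : Prop where
  self : ∀ x, D x x = 0
  comm : ∀ x y, D x y = D y x
  tri : ∀ x y z, D x z ≤ D x y + D y z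
  inv : ∀ (g : G) x y, D (g • x) (g • y) = D x y

/-- balls -/
def eb {X : Type} (D : X → X → ℝ≥0∞) (x : X) (r : ℝ) : Set X := {y | D x y < ENNReal.ofReal r}

theorem eb_mono {X : Type} {D : X → X → ℝ≥0∞} {x : X} {r s : ℝ} (h : r ≤ s) : eb D x r ⊆ eb D x s :=
  fun _ hy => lt_of_lt_of_le hy (ENNReal.ofReal_le_ofReal h)

theorem marg_e (K : ℕ) : ∃ R : ℝ, 1 ≤ R ∧ ∀ (G : Type) [Group G] (X : Type) [MulAction G X]
    [MeasurableSpace X] (D : X → X → ℝ≥0∞) (μ : Measure X) (x : X) (r : ℝ), CSA G → EDist G D →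
    (∀ y s, MeasurableSet (eb D y s)) → (∀ s, {g : G | g • x ∈ eb D x s}.Finite) →
    (∀ (g : G) s, μ (eb D (g • x) s) = μ (eb D x s)) →
    (∀ s, 0 < s → s ≤ r → μ (eb D x s) ≠ 0 ∧ μ (eb D x s) ≠ ∞) →
    (∀ s, 0 < s → 2 * s ≤ r → μ (eb D x (2 * s)) ≤ K * μ (eb D x s)) →
    ∀ a b : G, a • x ∈ eb D x (r / R) → b • x ∈ eb D x (r / R) → Commute a b := by
  obtain ⟨R, hR1, hR⟩ := marg.{0} (K ^ 3)
  refine ⟨2 * R, by linarith, fun G _ X _ _ D μ x r hG hD hm hf hμ h0 hd a b ha hb => ?_⟩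
  have t1 : ∀ g h : G, D x ((g * h) • x) ≤ D x (g • x) + D x (h • x) := fun g h =>
    (hD.tri _ (g • x) _).trans (by rw [mul_smul, hD.inv])
  have t2 : ∀ g : G, D x (g⁻¹ • x) = D x (g • x) := fun g => by
    rw [← hD.inv g, smul_inv_smul, hD.comm]
  let H : Subgroup G :=
    { carrier := {g | D x (g • x) ≠ ∞}
      one_mem' := by simp [hD.self]
      mul_mem' := fun h1 h2 => ne_top_of_le_ne_top (ENNReal.add_ne_top.2 ⟨h1, h2⟩) (t1 _ _)
      inv_mem' := fun h => (t2 _).trans_ne h }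
  let len : H → ℝ := fun g => (D x (g.1 • x)).toReal
  have e : ∀ g : H, D x (g.1 • x) = ENNReal.ofReal (len g) := fun g =>
    (ENNReal.ofReal_toReal g.2).symm
  have hl : Len len := ⟨by simp [len, hD.self],
    fun g h => ENNReal.toReal_le_add (t1 _ _) g.2 h.2, fun g => congrArg ENNReal.toReal (t2 g.1),
    fun s => ((hf (|s| + 1)).preimage Subtype.val_injective.injOn).subset fun g hg => by
      change D _ _ < _
      rw [e]
      exact (ENNReal.ofReal_lt_ofReal_iff (by positivity)).2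
        (lt_of_le_of_lt hg (by linarith [le_abs_self s]))⟩
  have h1 : ∀ (g : G) (hg : g • x ∈ eb D x (r / (2 * R))), R * len ⟨g, ne_top_of_lt hg⟩ ≤ r / 2 :=
    fun g hg => by
      have := (ENNReal.toReal_lt_of_lt_ofReal hg).le
      rw [le_div_iff₀ (by linarith)] at this
      simp only [len]
      linarith
  refine (hR H len (r / 2) (hG.subgroup H) hl (fun s hs hr => ?_) _ _ (h1 a ha) (h1 b hb)).map
    H.subtype
  refine hl.cover hs.le fun T h2 h3 => ?_
  obtain ⟨h4, h5⟩ := h0 _ (half_pos hs) (by linarith)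
  have h6 : μ (⋃ g ∈ T, eb D (g.1 • x) (s / 2)) = T.card * μ (eb D x (s / 2)) := by
    rw [measure_biUnion_finset (fun g hg g' hg' hne => ?_) fun _ _ => hm _ _]
    · simp [hμ]
    · refine disjoint_left.2 fun y a b => ((ENNReal.ofReal_lt_ofReal_iff (hs.trans
        (h3 g hg g' hg' hne))).2 (h3 g hg g' hg' hne)).not_ge ?_
      rw [← e, Subgroup.coe_mul, mul_smul, ← hD.inv g.1, Subgroup.coe_inv, smul_inv_smul,
        ← add_halves s, ENNReal.ofReal_add (half_pos hs).le (half_pos hs).le]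
      exact (hD.tri _ y _).trans (add_le_add (le_of_lt a) ((hD.comm _ _).trans_le (le_of_lt b)))
  have h7 : μ (⋃ g ∈ T, eb D (g.1 • x) (s / 2)) ≤ (K ^ 3 : ℕ) * μ (eb D x (s / 2)) :=
    calc _ ≤ μ (eb D x (2 * (2 * (2 * (s / 2))))) := measure_mono (iUnion₂_subset fun g hg y hy => by
          refine (hD.tri _ (g.1 • x) _).trans_lt ?_
          rw [e]
          refine (ENNReal.add_lt_add_left ENNReal.ofReal_ne_top hy).trans_le ?_
          rw [← ENNReal.ofReal_add (hl.nonneg g) (half_pos hs).le]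
          exact ENNReal.ofReal_le_ofReal (by linarith [h2 g hg]))
      _ ≤ K * (K * (K * μ (eb D x (s / 2)))) :=
        (hd _ (by linarith) (by linarith)).trans (mul_le_mul_right ((hd _ (by linarith)
          (by linarith)).trans (mul_le_mul_right (hd _ (by linarith) (by linarith)) _)) _)
      _ = _ := by push_cast; ring
  rw [h6] at h7
  exact_mod_cast (ENNReal.mul_le_mul_iff_left h4 h5).1 h7

variable {G : Type} [Group G]

/-- `π` is the quotient map of a free action, and balls lift -/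
structure QuoE (G : Type) [Group G] {X N : Type} [TopologicalSpace X] [MulAction G X]
    [PseudoMetricSpace N] (D : X → X → ℝ≥0∞) (π : X → N) : Prop extends EDist G D where
  opn : ∀ y r, IsOpen (eb D y r)
  cont : Continuous π
  surj : Function.Surjective π
  pinv : ∀ (g : G) y, π (g • y) = π y
  orb : ∀ y y', π y = π y' → ∃ g : G, g • y = y'
  lift : ∀ y r, ball (π y) r ⊆ π '' eb D y r
  free : ∀ (g : G) (y : X), g • y = y → g = 1

theorem thin_topE (hG : CSA G) [Nontrivial G]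
    (hc : ∀ x : G, x ≠ 1 → ∃ z : G, ∀ y, Commute x y → y ∈ Subgroup.zpowers z)
    {X N k : Type} [Field k] [TopologicalSpace X] [MulAction G X] {D : X → X → ℝ≥0∞}
    [MetricSpace N] [CompactSpace N] [MeasurableSpace N] [BorelSpace N] {π : X → N}
    (hπ : QuoE G D π) {ρ : N → ℝ} (hρ : ∀ p, 0 < ρ p)
    (h1 : ∀ (y : X) (a b : G), a • y ∈ eb D y (2 * ρ (π y)) → b • y ∈ eb D y (2 * ρ (π y)) →
      Commute a b)
    (h2 : ∀ p, μH[3] (ball p (ρ p)) < ENNReal.ofReal (ρ p ^ 3 / 64))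
    {f : Cochain X k 3} (hf : ∀ (g : G) x, f (g • x) = f x) (h0 : cobd f = 0) :
    ∃ h : Cochain X k 2, (∀ (g : G) x, h (g • x) = h x) ∧ LocZero (f - cobd h) := by
  classical
  obtain ⟨T, hT⟩ := isCompact_univ.elim_finite_subcover (fun p => ball p (ρ p / 8))
    (fun _ => isOpen_ball) fun p _ => mem_iUnion.2 ⟨p, mem_ball_self (by linarith [hρ p])⟩
  obtain ⟨κ, h3, h4⟩ := exists_idx (ι := T) (c := Subtype.val) (r := fun i => ρ i)
    (fun i => hρ i) (fun p => let ⟨i, hi, h⟩ := mem_iUnion₂.1 (hT (mem_univ p)); ⟨⟨i, hi⟩, h⟩)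
    fun i => h2 i
  choose l hl using hπ.surj
  have h5 : ∀ p : N, ∃ z : G, z ≠ 1 ∧ ∀ a : G, a • l p ∈ eb D (l p) (2 * ρ p) → Commute z a := by
    intro p
    by_cases e : ∃ z : G, z ≠ 1 ∧ z • l p ∈ eb D (l p) (2 * ρ p)
    · obtain ⟨z, hz, e⟩ := e
      exact ⟨z, hz, fun a ha => h1 (l p) z a (by rwa [hl]) (by rwa [hl])⟩
    · obtain ⟨z, hz⟩ := exists_ne (1 : G)
      exact ⟨z, hz, fun a ha => by
        rw [not_not.1 fun h => e ⟨a, h, ha⟩]
        exact Commute.one_right z⟩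
  choose z hz h5 using h5
  have hs : ∀ (g : G) y y' r, y' ∈ eb D y r → g • y' ∈ eb D (g • y) r := fun g y y' r h =>
    (hπ.inv g y y').trans_lt h
  have h6 : ∀ y p, π y ∈ ball p (ρ p) → ∃ g : G, y ∈ eb D (g • l p) (ρ p) := fun y p h => by
    obtain ⟨y', h6, h7⟩ := hπ.lift (l p) (ρ p) (by rwa [hl])
    obtain ⟨g, rfl⟩ := hπ.orb _ _ h7
    exact ⟨g, hs _ _ _ _ h6⟩
  choose γ hγ using fun y => h6 y _ (h3 (π y))
  have h7 : ∀ y (p : T) (g : G), κ (π y) = p → y ∈ eb D (g • l p) (ρ p) →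
      γ y • cz (z (κ (π y))) = g • cz (z p) := by
    rintro y _ g rfl h
    rw [← inv_smul_eq_iff, ← mul_smul, hG.fix_iff (hz _)]
    refine h5 _ _ ?_
    change D _ _ < _
    rw [← hπ.inv g, mul_smul, smul_inv_smul, two_mul, ENNReal.ofReal_add (hρ _).le (hρ _).le]
    exact (hπ.tri _ y _).trans_lt (ENNReal.add_lt_add h ((hπ.comm _ _).trans_lt (hγ y)))
  obtain ⟨h, h8, h9⟩ := hG.three hc hπ.free (φ := fun y => γ y • cz (z (κ (π y))))
    (fun g y => by
      rw [← mul_smul]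
      refine h7 _ _ _ (by rw [hπ.pinv]) ?_
      rw [mul_smul]
      exact hs _ _ _ _ (hγ y))
    (fun y => ⟨_, conj_ne (hz _), smul_cz _ _⟩) hf h0
  refine ⟨h, h8, fun y => ?_⟩
  obtain ⟨u, hu⟩ := h4 (π y)
  choose! g hg using h6 y
  refine ⟨{y' | ∃ j, γ y' • cz (z (κ (π y'))) = g (u j) • cz (z (u j))}, ?_, fun x hx =>
    sub_eq_zero.2 (h9 x ((Finset.card_le_card (t := Finset.univ.image
      fun j => g (u j) • cz (z (u j))) fun C hC => ?_).trans (Finset.card_image_le.trans (by simp))))⟩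
  · have h10 : ∀ᶠ y' in 𝓝 y, ∀ j, π y ∈ ball (u j : N) (ρ (u j)) →
        y' ∈ eb D (g (u j) • l (u j)) (ρ (u j)) := eventually_all.2 fun j => by
      by_cases e : π y ∈ ball (u j : N) (ρ (u j))
      · exact mem_of_superset ((hπ.opn _ _).mem_nhds (hg _ e)) fun _ h _ => h
      · exact Eventually.of_forall fun _ h => absurd h e
    filter_upwards [h10, (hπ.cont.tendsto y).eventually hu] with y' a ⟨j, b, c⟩
    exact ⟨j, h7 _ _ _ b (a j c)⟩
  · obtain ⟨i, -, rfl⟩ := Finset.mem_image.1 hC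
    obtain ⟨j, hj⟩ := hx i
    exact Finset.mem_image.2 ⟨j, Finset.mem_univ _, hj.symm⟩

/-- **Thin lemma** for extended distance functions. -/
theorem thin_absE (K : ℕ) : ∃ R : ℝ, 1 ≤ R ∧ ∀ (G : Type) [Group G] [Nontrivial G] (X N k : Type)
    [Field k] [TopologicalSpace X] [MulAction G X] [MeasurableSpace X]
    [OpensMeasurableSpace X] [MetricSpace N] [CompactSpace N] [MeasurableSpace N] [BorelSpace N]
    (D : X → X → ℝ≥0∞) (π : X → N) (μ : Measure X) (r : N → ℝ) (f : Cochain X k 3),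
    (∀ (x : G) (n : ℕ), n ≠ 0 → x ^ n = 1 → x = 1) →
    (∀ x : G, x ≠ 1 → ∃ z : G, ∀ y, Commute x y → y ∈ Subgroup.zpowers z) → QuoE G D π →
    (∀ (y : X) s, {g : G | g • y ∈ eb D y s}.Finite) →
    (∀ (y : X) (g : G) s, μ (eb D (g • y) s) = μ (eb D y s)) →
    (∀ (y : X) s, 0 < s → μ (eb D y s) ≠ 0 ∧ μ (eb D y s) ≠ ∞) → (∀ p, 0 < r p) →
    (∀ y s, 0 < s → 2 * s ≤ r (π y) → μ (eb D y (2 * s)) ≤ K * μ (eb D y s)) →
    (∀ p, μH[3] (ball p (r p / R)) < ENNReal.ofReal ((r p / R) ^ 3 / 64)) →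
    (∀ (g : G) x, f (g • x) = f x) → cobd f = 0 →
    ∃ h : Cochain X k 2, (∀ (g : G) x, h (g • x) = h x) ∧ LocZero (f - cobd h) := by
  obtain ⟨R, h1, hR⟩ := marg_e K
  refine ⟨2 * R, by linarith, fun G _ _ X N k _ _ _ _ _ _ _ _ _ D π μ r f tf hc hπ h2 h3 h4 h5 h6 h7
    hf h0 => thin_topE (csa_of_cyclic tf hc) hc hπ (ρ := fun p => r p / (2 * R))
      (fun p => div_pos (h5 p) (by linarith)) (fun y a b ha hb => ?_) h7 hf h0⟩
  have e : 2 * (r (π y) / (2 * R)) = r (π y) / R := by field_simp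
  rw [e] at ha hb
  exact hR G X D μ y _ (csa_of_cyclic tf hc) hπ.toEDist (fun y s => (hπ.opn y s).measurableSet)
    (h2 y) (h3 y) (fun s hs _ => h4 y s hs) (h6 y) a b ha hb

end Vale.Agent.P216MG
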